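import Vale.Agent.P148.R2.H995.Excl
import Vale.Agent.P148.R2.H592.Dom1

/-!
# P148, row CW, part 1: the fresh region inside an explored circuit

`Pi` : vertices of one colour hugged by the explored strand, `Wh` : the other hugged vertices.
If `Pi` crosses lengthwise the four sides of a square annulus and the vertices of `Wh` are joined
off `Pi` to the outside, every explored neighbour of the fresh region is in `Pi`.
-/

open Set Metric Topology Filter

namespace Vale.Agent.P148.R2.H871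

open H592 H995

theorem exists_seq {α : Type*} {R : α → α → Prop} {x y : α} (h : Relation.ReflTransGen R x y) :
    ∃ (m : ℕ) (w : ℕ → α), w 0 = x ∧ w m = y ∧ ∀ i < m, R (w i) (w (i + 1)) := by
  induction h with
  | refl => exact ⟨0, fun _ => x, rfl, rfl, fun i hi => absurd hi (Nat.not_lt_zero _)⟩
  | tail _ hbc ih =>
    rename_i b c _
    obtain ⟨m, w, h0, hm, hs⟩ := ih
    refine ⟨m + 1, fun i => if i ≤ m then w i else c, ?_, ?_, ?_⟩
    · simp [h0]
    · simp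
    · intro i hi
      by_cases h1 : i < m
      · have h2 : i ≤ m := h1.le
        have h3 : i + 1 ≤ m := h1
        simp only [h2, h3, if_true]
        exact hs i h1
      · have h2 : i = m := by omega
        subst h2
        have h3 : ¬ i + 1 ≤ i := by omega
        simp only [le_refl, if_true, h3, if_false]
        rw [hm]
        exact hbc

/-- `Pi` contains paths crossing the four sides of the square annulus lengthwise (hypothesis of
`H995.no_arm`). -/
def Around (X : Set ℂ) (p : ℂ) (r R : ℝ) (Pi : Set ℂ) : Prop :=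
  ∀ ι : ℂ, (ι = 1 ∨ ι = Complex.I ∨ ι = -1 ∨ ι = -Complex.I) →
    ∃ (n : ℕ) (v : ℕ → ℂ), (∀ i < n, nbr X (v i) (v (i + 1))) ∧
      (∀ i ≤ n, v i ∈ Pi ∧ r ≤ (ι * (v i - p)).im ∧ (ι * (v i - p)).im ≤ R) ∧
      (ι * (v 0 - p)).re ≤ -R ∧ R ≤ (ι * (v n - p)).re

/-- A path off `Pi` does not join the inside to the outside. -/
theorem Around.no_path {X : Set ℂ} (hX : Three X) {p : ℂ} {r R : ℝ} (hrR : r < R) (hR : 0 < R)
    {Pi : Set ℂ} (hB : Around X p r R Pi) {x y : ℂ}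
    (h : Relation.ReflTransGen (fun a b => nbr X a b ∧ a ∉ Pi ∧ b ∉ Pi) x y) (hx : x ∉ Pi)
    (hx0 : nin (x - p) ≤ r) (hy : R ≤ nin (y - p)) : False := by
  obtain ⟨m, w, h0, hm, hs⟩ := exists_seq h
  refine no_arm hX hrR (B := Pi) (W := Piᶜ) disjoint_compl_right hB hR
    (fun i hi => (hs i hi).1) (m := m) ?_ (by rw [h0]; exact hx0) (by rw [hm]; exact hy)
  intro i hi
  rcases Nat.eq_zero_or_pos i with rfl | h1
  · rw [h0]; exact hx
  · have := (hs (i - 1) (by omega)).2.2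
    rwa [Nat.sub_add_cancel h1] at this

/-- **CW1.** The explored neighbours of the fresh region are in `Pi`. -/
theorem Around.nbr_fresh {X : Set ℂ} (hX : Three X) {p : ℂ} {r R : ℝ} (hrR : r < R) (hR : 0 < R)
    {Pi Wh : Set ℂ} (hB : Around X p r R Pi) (hPW : Disjoint Pi Wh)
    (hout : ∀ w ∈ Wh, ∃ z, R ≤ nin (z - p) ∧
      Relation.ReflTransGen (fun a b => nbr X a b ∧ a ∉ Pi ∧ b ∉ Pi) w z)
    {i₀ : ℂ} (hi₀ : nin (i₀ - p) ≤ r) (hi₁ : i₀ ∉ Pi) {u v : ℂ}
    (hu : u ∈ comp X (X \ (Pi ∪ Wh)) i₀) (huv : nbr X u v) :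
    v ∈ comp X (X \ (Pi ∪ Wh)) i₀ ∨ v ∈ Pi := by
  rcases nbr_comp hu huv with h | h
  · exact Or.inl h
  · rcases h with h | h
    · exact Or.inr h
    · exfalso
      obtain ⟨z, hz, hvz⟩ := hout v h
      have hv : v ∉ Pi := fun h' => Set.disjoint_left.1 hPW h' h
      have huP : u ∉ Pi := fun h' => (comp_subset _ _ _ hu).2 (Or.inl h')
      have h1 : Relation.ReflTransGen (fun a b => nbr X a b ∧ a ∉ Pi ∧ b ∉ Pi) i₀ u :=
        Relation.ReflTransGen.mono (fun a b (hab : nbr X a b ∧ a ∈ X \ (Pi ∪ Wh) ∧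
          b ∈ X \ (Pi ∪ Wh)) => ⟨hab.1, fun h' => hab.2.1.2 (Or.inl h'),
            fun h' => hab.2.2.2 (Or.inl h')⟩) _ _ hu.2
      exact hB.no_path hX hrR hR ((h1.tail ⟨huv, huP, hv⟩).trans hvz) hi₁ hi₀ hz

/-- The fresh region stays inside. -/
theorem Around.fresh_inside {X : Set ℂ} (hX : Three X) {p : ℂ} {r R : ℝ} (hrR : r < R)
    (hR : 0 < R) {Pi Wh : Set ℂ} (hB : Around X p r R Pi) {i₀ : ℂ} (hi₀ : nin (i₀ - p) ≤ r)
    (hi₁ : i₀ ∉ Pi) {u : ℂ} (hu : u ∈ comp X (X \ (Pi ∪ Wh)) i₀) : nin (u - p) < R := by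
  by_contra hcon
  rw [not_lt] at hcon
  have h1 : Relation.ReflTransGen (fun a b => nbr X a b ∧ a ∉ Pi ∧ b ∉ Pi) i₀ u :=
    Relation.ReflTransGen.mono (fun a b (hab : nbr X a b ∧ a ∈ X \ (Pi ∪ Wh) ∧
      b ∈ X \ (Pi ∪ Wh)) => ⟨hab.1, fun h' => hab.2.1.2 (Or.inl h'),
        fun h' => hab.2.2.2 (Or.inl h')⟩) _ _ hu.2
  exact hB.no_path hX hrR hR h1 hi₁ hi₀ hcon

end Vale.Agent.P148.R2.H871
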