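import Vale.Agent.P148.R2.H659.Cyc

/-!
# P148, row CW, part 5: the main cycle of a closed strand

If the target side of a strand is joined to `ω` off the left vertices and the source side is joined
to `z₀` off the right vertices, one of the cycles (classes) of the strand separates `z₀` from `ω`.
-/

namespace Vale.Agent.P148.R2.H871

open Function Vale.Agent.P148.R2.H258 Vale.Agent.P148.R2.H258.Tri

variable {V D : Type*} {T : Tri V D}

/-! ### potentials -/

/-- `N` is a face potential with jumps `m`. -/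
def PotF (T : Tri V D) (m N : D → ZMod 2) : Prop :=
  (∀ d, N (T.nxt d) = N d) ∧ ∀ d, N d + N (T.rev d) = m d

/-- No edge at `x` carries a jump. -/
def OffV (T : Tri V D) (m : D → ZMod 2) (x : V) : Prop :=
  ∀ f, T.src f = x ∨ T.tgt f = x → m f = 0

variable {m m' N N' : D → ZMod 2}

theorem PotF.add (h : PotF T m N) (h' : PotF T m' N') :
    PotF T (fun d => m d + m' d) (fun d => N d + N' d) := by
  refine ⟨fun d => ?_, fun d => ?_⟩
  · simp only [h.1, h'.1]
  · simp only
    rw [← h.2, ← h'.2]; ring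

theorem PotF.sum {ι : Type*} (s : Finset ι) {m N : ι → D → ZMod 2}
    (h : ∀ i ∈ s, PotF T (m i) (N i)) :
    PotF T (fun d => ∑ i ∈ s, m i d) (fun d => ∑ i ∈ s, N i d) := by
  refine ⟨fun d => ?_, fun d => ?_⟩
  · exact Finset.sum_congr rfl fun i hi => (h i hi).1 d
  · simp only
    rw [← Finset.sum_add_distrib]
    exact Finset.sum_congr rfl fun i hi => (h i hi).2 d

theorem PotF.const (h : PotF T m N) {x : V} (hx : OffV T m x) {d e : D} (hd : T.src d = x)
    (he : T.src e = x) : N d = N e := by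
  have key : ∀ f g : D, Relation.EqvGen
      (fun f g => g = T.rev (T.nxt (T.nxt f)) ∨ (T.src f = T.src (T.rev f) ∧ g = T.rev f)) f g →
      (T.src f = T.src g ∧ (T.src f = x → N f = N g)) := by
    intro f g hfg
    induction hfg with
    | rel f g hh =>
      rcases hh with rfl | ⟨h1, rfl⟩
      · refine ⟨by rw [T.src_rev, T.tgt_nxt2], fun hf => ?_⟩
        have h3 := h.2 (T.nxt (T.nxt f))
        rw [hx _ (Or.inr (by rw [T.tgt_nxt2]; exact hf)), h.1, h.1] at h3
        exact (zmod2_add_eq_zero h3).symm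
      · refine ⟨h1, fun hf => ?_⟩
        have h3 := h.2 f
        rw [hx _ (Or.inl hf)] at h3
        exact (zmod2_add_eq_zero h3).symm
    | refl f => exact ⟨rfl, fun _ => rfl⟩
    | symm f g _ ih => exact ⟨ih.1.symm, fun hf => (ih.2 (by rw [ih.1, hf])).symm⟩
    | trans f g k _ _ ih1 ih2 =>
      exact ⟨ih1.1.trans ih2.1, fun hf => (ih1.2 hf).trans (ih2.2 (by rw [← ih1.1, hf]))⟩
  exact (key d e (T.link d e (hd.trans he.symm))).2 hd

theorem PotF.walk (h : PotF T m N) {u v : V} {l : List D} (hl : T.Walk u v l)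
    (hu : OffV T m u) (hoff : ∀ g ∈ l, OffV T m (T.tgt g)) {d e : D} (hd : T.src d = u)
    (he : T.src e = v) : N d = N e := by
  induction hl generalizing d with
  | nil v => exact h.const hu hd he
  | cons g w l _ ih =>
    have h1 : N d = N g := h.const hu hd rfl
    have h2 := h.2 g
    rw [hu g (Or.inl rfl)] at h2
    rw [h1, ← zmod2_add_eq_zero h2]
    exact ih (hoff g (by simp)) (fun g' hg' => hoff g' (by simp [hg'])) rfl he

theorem PotF.of_pot (hnl : ∀ f, T.src f ≠ T.tgt f) {l : List D} (h : T.Pot l N) :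
    PotF T (T.mu l) N := ⟨h.1, fun d => h.2 d (Or.inl (hnl d))⟩

/-! ### multiplicities of the two sides of a strand -/

theorem mu_single_rev (e f : D) : T.mu [T.rev e] f = T.mu [e] f := by
  classical
  have e1 : ∀ x y : D, (T.rev x = T.rev y) ↔ (x = y) := by
    intro x y
    constructor
    · intro h1
      have := congrArg T.rev h1
      rwa [T.rev_rev, T.rev_rev] at this
    · rintro rfl; rfl
  have e2 : ∀ x y : D, (T.rev x = y) ↔ (x = T.rev y) := by
    intro x y
    constructor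
    · rintro rfl; rw [T.rev_rev]
    · rintro rfl; rw [T.rev_rev]
  rw [T.mu_cons, T.mu_cons, T.mu_nil, e1, e2]
  ring

open Classical in
theorem mu_lw (σ : V → Bool) (d : D) (n : ℕ) (f : D) : T.mu (T.lw σ d n) f =
    ∑ i ∈ Finset.range n, if T.Mi σ ((T.st σ)^[i] d) then
      T.mu [T.nxt (T.nxt ((T.st σ)^[i] d))] f else 0 := by
  induction n with
  | zero => simp [lw, T.mu_nil]
  | succ n ih =>
    rw [Finset.sum_range_succ, ← ih]
    by_cases hm : T.Mi σ ((T.st σ)^[n] d)
    · have : T.lw σ d (n + 1) = T.lw σ d n ++ [T.rev (T.nxt (T.nxt ((T.st σ)^[n] d)))] := by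
        simp [lw, hm]
      rw [this, T.mu_append, mu_single_rev, if_pos hm]
    · have : T.lw σ d (n + 1) = T.lw σ d n := by
        simp [lw, hm]
      rw [this, if_neg hm, add_zero]

open Classical in
theorem mu_rw (σ : V → Bool) (d : D) (n : ℕ) (f : D) : T.mu (T.rw' σ d n) f =
    ∑ i ∈ Finset.range n, if T.Mi σ ((T.st σ)^[i] d) then 0 else
      T.mu [T.nxt ((T.st σ)^[i] d)] f := by
  induction n with
  | zero => simp [rw', T.mu_nil]
  | succ n ih =>
    rw [Finset.sum_range_succ, ← ih]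
    by_cases hm : T.Mi σ ((T.st σ)^[n] d)
    · have : T.rw' σ d (n + 1) = T.rw' σ d n := by
        simp [rw', hm]
      rw [this, if_pos hm, add_zero]
    · have : T.rw' σ d (n + 1) = T.rw' σ d n ++ [T.nxt ((T.st σ)^[n] d)] := by
        simp [rw', hm]
      rw [this, T.mu_append, if_neg hm]

open Classical in
/-- The monochromatic dart of the face of a bichromatic dart. -/
noncomputable def third (T : Tri V D) (σ : V → Bool) (e : D) : D :=
  if T.Mi σ e then T.nxt (T.nxt e) else T.nxt e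

theorem third_mono {σ : V → Bool} {e : D} (he : T.Bi σ e) : ¬ T.Bi σ (third T σ e) := by
  unfold third Tri.Bi
  by_cases hm : T.Mi σ e
  · rw [if_pos hm, T.tgt_nxt2, T.src_nxt2, not_not]
    exact hm.2
  · rw [if_neg hm, T.src_nxt', T.tgt_nxt, not_not]
    exact (T.nmi_apex he hm).symm

theorem third_inj {σ : V → Bool} {e e' : D} (he : T.Bi σ e) (h : third T σ e = third T σ e')
    (hc : σ (T.src e) = σ (T.src e')) (he' : T.Bi σ e') : e = e' := by
  have h3 : ∀ {a b : D}, T.nxt a = T.nxt b → a = b := by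
    intro a b hab
    rw [← T.nxt3 a, hab, T.nxt3]
  unfold third at h
  by_cases hm : T.Mi σ e <;> by_cases hm' : T.Mi σ e'
  · rw [if_pos hm, if_pos hm'] at h
    exact h3 (h3 h)
  · rw [if_pos hm, if_neg hm'] at h
    have h4 : e' = T.nxt e := (h3 h).symm
    exfalso
    apply he
    rw [hc, h4, T.src_nxt']
  · rw [if_neg hm, if_pos hm'] at h
    have h4 : e = T.nxt e' := h3 h
    exfalso
    apply he'
    rw [← hc, h4, T.src_nxt']
  · rw [if_neg hm, if_neg hm'] at h
    exact h3 h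

open Classical in
theorem mu_sides (σ : V → Bool) (d : D) (n : ℕ) (f : D) :
    T.mu (T.lw σ d n) f + T.mu (T.rw' σ d n) f =
      (∑ i ∈ Finset.range n, if third T σ ((T.st σ)^[i] d) = f then (1 : ZMod 2) else 0) +
      ∑ i ∈ Finset.range n, if third T σ ((T.st σ)^[i] d) = T.rev f then (1 : ZMod 2) else 0 := by
  rw [mu_lw, mu_rw, ← Finset.sum_add_distrib, ← Finset.sum_add_distrib]
  apply Finset.sum_congr rfl
  intro i _
  unfold third
  by_cases hm : T.Mi σ ((T.st σ)^[i] d)
  · simp only [if_pos hm, add_zero]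
    rw [T.mu_cons, T.mu_nil, add_zero]
  · simp only [if_neg hm, zero_add]
    rw [T.mu_cons, T.mu_nil, add_zero]

open Classical in
/-- Indicator of the faces of the strand. -/
noncomputable def chi (T : Tri V D) (σ : V → Bool) (d f : D) : ZMod 2 :=
  if ∃ n, f = (T.st σ)^[n] d ∨ T.nxt f = (T.st σ)^[n] d ∨ T.nxt (T.nxt f) = (T.st σ)^[n] d then 1
  else 0

theorem chi_nxt (σ : V → Bool) (d f : D) : chi T σ d (T.nxt f) = chi T σ d f := by
  unfold chi
  congr 1
  apply propext
  constructor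
  · rintro ⟨n, h | h | h⟩
    · exact ⟨n, Or.inr (Or.inl h)⟩
    · exact ⟨n, Or.inr (Or.inr h)⟩
    · rw [T.nxt3] at h; exact ⟨n, Or.inl h⟩
  · rintro ⟨n, h | h | h⟩
    · refine ⟨n, Or.inr (Or.inr ?_)⟩
      rw [T.nxt3]; exact h
    · exact ⟨n, Or.inl h⟩
    · exact ⟨n, Or.inr (Or.inl h)⟩

theorem iter_per [Finite D] (σ : V → Bool) (d : D) (n : ℕ) :
    (T.st σ)^[n] d = (T.st σ)^[n % minimalPeriod (T.st σ) d] d :=
  (iterate_mod_minimalPeriod_eq).symm

/-- The face entered before a dart of the strand. -/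
theorem exists_pred [Finite D] (σ : V → Bool) (d : D) (n : ℕ) :
    ∃ k, (T.st σ)^[n] d = T.st σ ((T.st σ)^[k] d) := by
  have hp := T.pos_period σ d
  refine ⟨n + minimalPeriod (T.st σ) d - 1, ?_⟩
  rw [← iterate_succ_apply' (T.st σ), Nat.succ_eq_add_one,
    show n + minimalPeriod (T.st σ) d - 1 + 1 = n + minimalPeriod (T.st σ) d by omega,
    iterate_add_apply, iterate_minimalPeriod]

theorem chi_rev_of_bi [Finite D] {σ : V → Bool} {d f : D} (hb : T.Bi σ d) (hf : T.Bi σ f)
    (h : ∃ n, f = (T.st σ)^[n] d ∨ T.nxt f = (T.st σ)^[n] d ∨ T.nxt (T.nxt f) = (T.st σ)^[n] d) :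
    ∃ n, T.rev f = (T.st σ)^[n] d ∨ T.nxt (T.rev f) = (T.st σ)^[n] d ∨
      T.nxt (T.nxt (T.rev f)) = (T.st σ)^[n] d := by
  obtain ⟨n, h | h | h⟩ := h
  · obtain ⟨k, hk⟩ := exists_pred σ d n
    have hbk : T.Bi σ ((T.st σ)^[k] d) := (T.bi_iter k).2 hb
    refine ⟨k, Or.inr ?_⟩
    by_cases hm : T.Mi σ ((T.st σ)^[k] d)
    · rw [T.st_mi hm] at hk
      right
      rw [h, hk, T.rev_rev, T.nxt3]
    · rw [T.st_nmi hbk hm] at hk
      left
      rw [h, hk, T.rev_rev, T.nxt3]
  · -- `f = nxt (nxt e)`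
    have hbn : T.Bi σ ((T.st σ)^[n] d) := (T.bi_iter n).2 hb
    have hfe : f = T.nxt (T.nxt ((T.st σ)^[n] d)) := by rw [← h, T.nxt3]
    refine ⟨n + 1, Or.inl ?_⟩
    by_cases hm : T.Mi σ ((T.st σ)^[n] d)
    · exfalso
      apply hf
      rw [hfe, T.src_nxt2, T.tgt_nxt2]; exact hm.2
    · rw [iterate_succ_apply', T.st_nmi hbn hm, hfe]
  · have hfe : f = T.nxt ((T.st σ)^[n] d) := by rw [← h, T.nxt3]
    have hbn : T.Bi σ ((T.st σ)^[n] d) := (T.bi_iter n).2 hb
    refine ⟨n + 1, Or.inl ?_⟩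
    by_cases hm : T.Mi σ ((T.st σ)^[n] d)
    · rw [iterate_succ_apply', T.st_mi hm, hfe]
    · exfalso
      apply hf
      rw [hfe, T.src_nxt', T.tgt_nxt]
      exact (T.nmi_apex hbn hm).symm

open Classical in
/-- Each face is visited once. -/
theorem chi_of_mono [Finite D] {σ : V → Bool} {d f : D} (hb : T.Bi σ d) (hf : ¬ T.Bi σ f) :
    chi T σ d f = ∑ i ∈ Finset.range (minimalPeriod (T.st σ) d),
      if third T σ ((T.st σ)^[i] d) = f then (1 : ZMod 2) else 0 := by
  have hiff : (∃ n, f = (T.st σ)^[n] d ∨ T.nxt f = (T.st σ)^[n] d ∨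
      T.nxt (T.nxt f) = (T.st σ)^[n] d) ↔ ∃ n, third T σ ((T.st σ)^[n] d) = f := by
    constructor
    · rintro ⟨n, h⟩
      have hbn : T.Bi σ ((T.st σ)^[n] d) := (T.bi_iter n).2 hb
      refine ⟨n, ?_⟩
      unfold third
      rcases h with h | h | h
      · exact absurd (by rw [h]; exact hbn) hf
      · have hfe : f = T.nxt (T.nxt ((T.st σ)^[n] d)) := by rw [← h, T.nxt3]
        by_cases hm : T.Mi σ ((T.st σ)^[n] d)
        · rw [if_pos hm, hfe]
        · exfalso
          apply hf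
          unfold Tri.Bi
          rw [hfe, T.src_nxt2, T.tgt_nxt2, T.nmi_apex hbn hm]
          exact hbn.symm
      · have hfe : f = T.nxt ((T.st σ)^[n] d) := by rw [← h, T.nxt3]
        by_cases hm : T.Mi σ ((T.st σ)^[n] d)
        · exfalso
          apply hf
          unfold Tri.Bi
          rw [hfe, T.src_nxt', T.tgt_nxt, hm.2]
          exact hbn.symm
        · rw [if_neg hm, hfe]
    · rintro ⟨n, h⟩
      refine ⟨n, ?_⟩
      unfold third at h
      by_cases hm : T.Mi σ ((T.st σ)^[n] d)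
      · rw [if_pos hm] at h
        right; left
        rw [← h, T.nxt3]
      · rw [if_neg hm] at h
        right; right
        rw [← h, T.nxt3]
  unfold chi
  by_cases hex : ∃ n, third T σ ((T.st σ)^[n] d) = f
  · rw [if_pos (hiff.2 hex)]
    obtain ⟨n, hn⟩ := hex
    set p := minimalPeriod (T.st σ) d with hp
    have hp0 : 0 < p := T.pos_period σ d
    have hn' : third T σ ((T.st σ)^[n % p] d) = f := by rw [← iter_per, hn]
    rw [Finset.sum_eq_single (n % p)]
    · rw [if_pos hn']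
    · intro i hi hine
      rw [if_neg]
      intro hi2
      apply hine
      have h1 : (T.st σ)^[i] d = (T.st σ)^[n % p] d :=
        third_inj ((T.bi_iter i).2 hb) (hi2.trans hn'.symm)
          (by rw [T.col_src_iter σ d i, T.col_src_iter σ d (n % p)]) ((T.bi_iter _).2 hb)
      exact (iterate_eq_iterate_iff_of_lt_minimalPeriod (Finset.mem_range.1 hi)
        (Nat.mod_lt _ hp0)).1 h1
    · intro h
      exact absurd (Finset.mem_range.2 (Nat.mod_lt _ hp0)) h
  · rw [if_neg (fun h => hex (hiff.1 h)), Finset.sum_eq_zero]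
    intro i _
    rw [if_neg (fun h => hex ⟨i, h⟩)]

/-- The boundary of the closed strip of the strand consists of its two sides. -/
theorem chi_add [Finite D] {σ : V → Bool} {d : D} (hb : T.Bi σ d) (f : D) :
    chi T σ d f + chi T σ d (T.rev f) =
      T.mu (T.lw σ d (minimalPeriod (T.st σ) d)) f +
        T.mu (T.rw' σ d (minimalPeriod (T.st σ) d)) f := by
  classical
  rw [mu_sides]
  by_cases hf : T.Bi σ f
  · have hf' : T.Bi σ (T.rev f) := T.bi_rev.2 hf
    have h0 : ∀ g, T.Bi σ g → (∑ i ∈ Finset.range (minimalPeriod (T.st σ) d),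
        if third T σ ((T.st σ)^[i] d) = g then (1 : ZMod 2) else 0) = 0 := by
      intro g hg
      apply Finset.sum_eq_zero
      intro i _
      rw [if_neg]
      rintro rfl
      exact third_mono ((T.bi_iter i).2 hb) hg
    rw [h0 f hf, h0 _ hf', add_zero]
    have : chi T σ d (T.rev f) = chi T σ d f := by
      unfold chi
      congr 1
      apply propext
      constructor
      · intro h
        have := chi_rev_of_bi hb hf' h
        rwa [T.rev_rev] at this
      · exact chi_rev_of_bi hb hf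
    rw [this]
    generalize chi T σ d f = a
    revert a; decide
  · have hf' : ¬ T.Bi σ (T.rev f) := fun h => hf (T.bi_rev.1 h)
    rw [chi_of_mono hb hf, chi_of_mono hb hf']

/-! ### the closed strand separates -/

theorem offV_lw {σ : V → Bool} {d : D} {n : ℕ} {x : V}
    (hx : ∀ i, T.src ((T.st σ)^[i] d) ≠ x) : OffV T (T.mu (T.lw σ d n)) x := by
  intro f hf
  apply T.mu_zero
  · intro h
    obtain ⟨i, -, h1, h2⟩ := T.lw_mem h
    rcases hf with hf | hf
    · exact hx i (by rw [← h1, hf])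
    · exact hx (i + 1) (by rw [← h2, hf])
  · intro h
    obtain ⟨i, -, h1, h2⟩ := T.lw_mem h
    rw [T.src_rev] at h1
    rw [T.tgt_rev] at h2
    rcases hf with hf | hf
    · exact hx (i + 1) (by rw [← h2, hf])
    · exact hx i (by rw [← h1, hf])

theorem offV_rw {σ : V → Bool} {d : D} (hb : T.Bi σ d) {n : ℕ} {x : V}
    (hx : ∀ i, T.tgt ((T.st σ)^[i] d) ≠ x) : OffV T (T.mu (T.rw' σ d n)) x := by
  intro f hf
  apply T.mu_zero
  · intro h
    obtain ⟨i, -, h1, h2⟩ := T.rw_mem hb h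
    rcases hf with hf | hf
    · exact hx i (by rw [← h1, hf])
    · exact hx (i + 1) (by rw [← h2, hf])
  · intro h
    obtain ⟨i, -, h1, h2⟩ := T.rw_mem hb h
    rw [T.src_rev] at h1
    rw [T.tgt_rev] at h2
    rcases hf with hf | hf
    · exact hx (i + 1) (by rw [← h2, hf])
    · exact hx i (by rw [← h1, hf])

theorem mu_lw_bi {σ : V → Bool} {d : D} {n : ℕ} {f : D} (hf : T.Bi σ f) :
    T.mu (T.lw σ d n) f = 0 := by
  have key : ∀ g ∈ T.lw σ d n, ¬ T.Bi σ g := by
    intro g hg hgb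
    obtain ⟨i, -, h1, h2⟩ := T.lw_mem hg
    apply hgb
    rw [h1, h2, T.col_src_iter σ d i, T.col_src_iter σ d (i + 1)]
  apply T.mu_zero
  · exact fun h => key f h hf
  · exact fun h => key _ h (T.bi_rev.2 hf)

/-- The potential of the left side of the closed strand separates `z₀` from `ω`. -/
theorem sep_parity [Finite D] {σ : V → Bool} {d : D} (hb : T.Bi σ d) {z₀ ω : V} {dz dω : D} (hdz : T.src dz = z₀) (hdω : T.src dω = ω)
    (hz : ∀ n, T.src ((T.st σ)^[n] d) ≠ z₀ ∧ T.tgt ((T.st σ)^[n] d) ≠ z₀ ∧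
      T.apex ((T.st σ)^[n] d) ≠ z₀)
    {l₁ l₂ : List D} (h₁ : T.Walk (T.tgt d) ω l₁)
    (h₁' : ∀ g ∈ l₁, ∀ i, T.src ((T.st σ)^[i] d) ≠ T.tgt g)
    (h₂ : T.Walk (T.src d) z₀ l₂) (h₂' : ∀ g ∈ l₂, ∀ i, T.tgt ((T.st σ)^[i] d) ≠ T.tgt g)
    {N : D → ZMod 2} (hN : PotF T (T.mu (T.lw σ d (minimalPeriod (T.st σ) d))) N) :
    N dz = N dω + 1 := by
  classical
  -- the left potential at the foot
  have a1 : N (T.rev d) = N dω := by
    refine hN.walk h₁ (offV_lw fun i hi => ?_) (fun g hg => offV_lw (h₁' g hg)) (T.src_rev d) hdω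
    apply hb
    rw [← hi, T.col_src_iter σ d i]
  have a2 : N d = N dω := by
    have := hN.2 d
    rw [mu_lw_bi hb] at this
    rw [← a1]; exact (zmod2_add_eq_zero this).symm
  -- the right potential
  have hR : PotF T (T.mu (T.rw' σ d (minimalPeriod (T.st σ) d)))
      (fun f => N f + chi T σ d f) := by
    refine ⟨fun f => ?_, fun f => ?_⟩
    · simp only [hN.1, chi_nxt]
    · have h3 := hN.2 f
      have h4 := chi_add hb f
      simp only
      have : N f + chi T σ d f + (N (T.rev f) + chi T σ d (T.rev f)) =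
          (N f + N (T.rev f)) + (chi T σ d f + chi T σ d (T.rev f)) := by ring
      rw [this, h3, h4]
      generalize T.mu (T.lw σ d (minimalPeriod (T.st σ) d)) f = a
      generalize T.mu (T.rw' σ d (minimalPeriod (T.st σ) d)) f = b
      revert a b; decide
  have a3 : chi T σ d d = 1 := by
    unfold chi
    rw [if_pos ⟨0, Or.inl rfl⟩]
  have a4 : chi T σ d dz = 0 := by
    unfold chi
    rw [if_neg]
    rintro ⟨n, h | h | h⟩
    · exact (hz n).1 (by rw [← h, hdz])
    · apply (hz n).2.2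
      rw [← h, T.apex_nxt, hdz]
    · apply (hz n).2.1
      rw [← h, T.tgt_nxt2, hdz]
  have a5 : N d + chi T σ d d = N dz + chi T σ d dz := by
    refine hR.walk h₂ (offV_rw hb fun i hi => ?_) (fun g hg => offV_rw hb (h₂' g hg)) rfl hdz
    apply hb
    rw [← hi, T.col_tgt_iter σ d i]
  rw [a3, a4, add_zero] at a5
  rw [← a5, a2]

/-! ### decomposition of the left side into classes -/

open Classical in
/-- The members of the class of `o`. -/
noncomputable def clF [Fintype D] (T : Tri V D) (σ : V → Bool) (o : D) : Finset D :=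
  Finset.univ.filter fun e => T.Rel σ o e

theorem mem_clF [Fintype D] {σ : V → Bool} {o e : D} : e ∈ clF T σ o ↔ T.Rel σ o e := by
  classical
  simp [clF]

theorem mu_map_range {f : ℕ → D} (g : D → D) (n : ℕ) (x : D) :
    T.mu ((List.range n).map fun i => g (f i)) x = ∑ i ∈ Finset.range n, T.mu [g (f i)] x := by
  induction n with
  | zero => simp [T.mu_nil]
  | succ n ih =>
    rw [List.range_succ, List.map_append, T.mu_append, ih, Finset.sum_range_succ]
    simp

/-- The potential of a class. -/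
theorem exists_class_pot [Fintype D] (hP : T.Planar) (hnl : ∀ f, T.src f ≠ T.tgt f)
    {σ : V → Bool} {o : D} (ho : T.Mi σ o) (hno : T.apex o ≠ T.src o) (dω : D) :
    ∃ N, PotF T (fun f => ∑ e ∈ clF T σ o, T.mu [T.nxt (T.nxt e)] f) N ∧ N dω = 0 := by
  classical
  obtain ⟨m, f, hm, hf0, hfm, hs, hij, hrel, hnd⟩ := T.class_cycle hP ho hno
  have hw := T.cycle_walk (f := f) (m := m) hs
  rw [hf0, hfm] at hw
  obtain ⟨N, hN, hN0⟩ := T.exists_pot hP hw dω
  refine ⟨N, ?_, hN0⟩
  have h1 := PotF.of_pot hnl hN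
  have e1 : (fun x => ∑ e ∈ clF T σ o, T.mu [T.nxt (T.nxt e)] x) =
      T.mu ((List.range m).map fun i => T.rev (T.nxt (T.nxt (f i)))) := by
    funext x
    rw [mu_map_range (T := T) (f := f) (fun e => T.rev (T.nxt (T.nxt e)))]
    have e2 : clF T σ o = (Finset.range m).image f := by
      ext e
      rw [mem_clF, hrel, Finset.mem_image]
      constructor
      · rintro ⟨i, hi, rfl⟩; exact ⟨i, Finset.mem_range.2 hi, rfl⟩
      · rintro ⟨i, hi, rfl⟩; exact ⟨i, Finset.mem_range.1 hi, rfl⟩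
    rw [e2, Finset.sum_image]
    · exact Finset.sum_congr rfl fun i _ => (mu_single_rev _ _).symm
    · intro i hi j hj hij'
      exact hij i (Finset.mem_range.1 hi) j (Finset.mem_range.1 hj) (by rw [hij'])
  rw [e1]
  exact h1

open Classical in
/-- The minority darts of a strand. -/
noncomputable def memF [Fintype D] (T : Tri V D) (σ : V → Bool) (d : D) : Finset D :=
  Finset.univ.filter fun e => T.Mi σ e ∧ ∃ n, (T.st σ)^[n] d = e

theorem mem_memF [Fintype D] {σ : V → Bool} {d e : D} :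
    e ∈ memF T σ d ↔ T.Mi σ e ∧ ∃ n, (T.st σ)^[n] d = e := by
  classical
  simp [memF]

theorem mu_lw_memF [Fintype D] (σ : V → Bool) (d f : D) :
    T.mu (T.lw σ d (minimalPeriod (T.st σ) d)) f =
      ∑ e ∈ memF T σ d, T.mu [T.nxt (T.nxt e)] f := by
  classical
  rw [mu_lw, ← Finset.sum_filter]
  set p := minimalPeriod (T.st σ) d with hp
  have hp0 : 0 < p := T.pos_period σ d
  have e2 : memF T σ d = ((Finset.range p).filter fun i => T.Mi σ ((T.st σ)^[i] d)).image
      fun i => (T.st σ)^[i] d := by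
    ext e
    rw [mem_memF, Finset.mem_image]
    constructor
    · rintro ⟨h1, n, rfl⟩
      refine ⟨n % p, ?_, ?_⟩
      · rw [Finset.mem_filter, Finset.mem_range]
        refine ⟨Nat.mod_lt _ hp0, ?_⟩
        rw [← iter_per]; exact h1
      · exact (iter_per σ d n).symm
    · rintro ⟨i, hi, rfl⟩
      exact ⟨(Finset.mem_filter.1 hi).2, i, rfl⟩
  rw [e2, Finset.sum_image]
  intro i hi j hj hij
  have hi' := Finset.mem_range.1 (Finset.mem_filter.1 hi).1
  have hj' := Finset.mem_range.1 (Finset.mem_filter.1 hj).1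
  exact (iterate_eq_iterate_iff_of_lt_minimalPeriod hi' hj').1 hij

/-- **The main cycle**: a class of the strand which separates `z₀` from `ω`. -/
theorem exists_main [Finite D] (hP : T.Planar) (hnl : ∀ f, T.src f ≠ T.tgt f) {σ : V → Bool}
    {d : D} (hb : T.Bi σ d) {z₀ ω : V} (hdz : ∃ dz, T.src dz = z₀) (hdω : ∃ dω, T.src dω = ω)
    (hz : ∀ n, T.src ((T.st σ)^[n] d) ≠ z₀ ∧ T.tgt ((T.st σ)^[n] d) ≠ z₀ ∧
      T.apex ((T.st σ)^[n] d) ≠ z₀)
    (h₁ : ∃ l, T.Walk (T.tgt d) ω l ∧ ∀ g ∈ l, ∀ i, T.src ((T.st σ)^[i] d) ≠ T.tgt g)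
    (h₂ : ∃ l, T.Walk (T.src d) z₀ l ∧ ∀ g ∈ l, ∀ i, T.tgt ((T.st σ)^[i] d) ≠ T.tgt g) :
    ∃ o, T.Mi σ o ∧ (∃ n, (T.st σ)^[n] d = o) ∧ ∀ l, T.Walk z₀ ω l →
      ∃ e, T.Rel σ o e ∧ (T.src e = z₀ ∨ ∃ g ∈ l, T.tgt g = T.src e) := by
  classical
  have := Fintype.ofFinite D
  obtain ⟨dz, hdz⟩ := hdz
  obtain ⟨dω, hdω⟩ := hdω
  obtain ⟨l₁, h₁, h₁'⟩ := h₁
  obtain ⟨l₂, h₂, h₂'⟩ := h₂
  have hnd : ∀ o, T.apex o ≠ T.src o := by
    intro o ho
    apply hnl (T.nxt (T.nxt o))
    rw [T.src_nxt2, T.tgt_nxt2, ho]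
  set p := minimalPeriod (T.st σ) d with hp
  -- the potential of the left side
  have hwL : T.Walk (T.src d) (T.src d) (T.lw σ d p) := by
    have := T.lw_walk hb p
    rwa [hp, iterate_minimalPeriod] at this
  obtain ⟨NL, hNL, hNL0⟩ := T.exists_pot hP hwL dω
  have hNL' := PotF.of_pot hnl hNL
  have hone : NL dz = 1 := by
    have := sep_parity hb hdz hdω hz h₁ h₁' h₂ h₂' hNL'
    rw [this, hNL0, zero_add]
  -- the potentials of the classes
  have hex : ∀ o, ∃ N, T.Mi σ o → (PotF T (fun f => ∑ e ∈ clF T σ o,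
      T.mu [T.nxt (T.nxt e)] f) N ∧ N dω = 0) := by
    intro o
    by_cases ho : T.Mi σ o
    · obtain ⟨N, h⟩ := exists_class_pot hP hnl ho (hnd o) dω
      exact ⟨N, fun _ => h⟩
    · exact ⟨fun _ => 0, fun h => absurd h ho⟩
  choose NC hNC using hex
  have hmain : ∃ o ∈ memF T σ d, NC o dz ≠ 0 := by
    by_contra hcon
    push Not at hcon
    set 𝒞 := (memF T σ d).image (clF T σ) with h𝒞
    have hrep : ∀ S, ∃ o, S ∈ 𝒞 → (o ∈ memF T σ d ∧ clF T σ o = S) := by
      intro S
      by_cases hS : S ∈ 𝒞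
      · obtain ⟨o, ho, h⟩ := Finset.mem_image.1 hS
        exact ⟨o, fun _ => ⟨ho, h⟩⟩
      · exact ⟨d, fun h => absurd h hS⟩
    choose rp hrp using hrep
    have hpot : PotF T (fun f => ∑ S ∈ 𝒞, ∑ e ∈ S, T.mu [T.nxt (T.nxt e)] f)
        (fun f => ∑ S ∈ 𝒞, NC (rp S) f) := by
      apply PotF.sum
      intro S hS
      obtain ⟨h1, h2⟩ := hrp S hS
      have := (hNC (rp S) (mem_memF.1 h1).1).1
      rwa [h2] at this
    have hsub : ∀ o ∈ memF T σ d, ∀ e ∈ clF T σ o, e ∈ memF T σ d := by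
      intro o ho e he
      obtain ⟨-, n, rfl⟩ := mem_memF.1 ho
      obtain ⟨-, he2, k, -, hk, -⟩ := mem_clF.1 he
      refine mem_memF.2 ⟨he2, k + n, ?_⟩
      rw [iterate_add_apply]; exact hk
    have hsum : ∀ f, (∑ S ∈ 𝒞, ∑ e ∈ S, T.mu [T.nxt (T.nxt e)] f) =
        T.mu (T.lw σ d p) f := by
      intro f
      rw [hp, mu_lw_memF]
      have e1 : memF T σ d = 𝒞.biUnion id := by
        ext e
        rw [Finset.mem_biUnion]
        constructor
        · intro he
          exact ⟨clF T σ e, Finset.mem_image_of_mem _ he,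
            mem_clF.2 (T.rel_refl (mem_memF.1 he).1)⟩
        · rintro ⟨S, hS, heS⟩
          obtain ⟨o, ho, rfl⟩ := Finset.mem_image.1 hS
          exact hsub o ho e heS
      rw [e1, Finset.sum_biUnion]
      · rfl
      · intro S hS S' hS' hne
        rw [Function.onFun, Finset.disjoint_left]
        intro e he he'
        apply hne
        obtain ⟨o, -, rfl⟩ := Finset.mem_image.1 hS
        obtain ⟨o', -, rfl⟩ := Finset.mem_image.1 hS'
        have r1 : T.Rel σ o e := mem_clF.1 he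
        have r2 : T.Rel σ o' e := mem_clF.1 he'
        ext g
        rw [mem_clF, mem_clF]
        constructor
        · intro h; exact T.rel_trans (T.rel_trans r2 (T.rel_symm r1)) h
        · intro h; exact T.rel_trans (T.rel_trans r1 (T.rel_symm r2)) h
    have hpot0 : PotF T (fun _ => 0) (fun f => NL f + ∑ S ∈ 𝒞, NC (rp S) f) := by
      have h3 := hNL'.add hpot
      have e2 : (fun f => T.mu (T.lw σ d p) f + ∑ S ∈ 𝒞, ∑ e ∈ S, T.mu [T.nxt (T.nxt e)] f) =
          fun _ => (0 : ZMod 2) := by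
        funext f
        rw [hsum]
        generalize T.mu (T.lw σ d p) f = a
        revert a; decide
      rwa [e2] at h3
    have hwalk : T.Walk z₀ ω ((l₂.map T.rev).reverse ++ (d :: l₁)) :=
      h₂.reverse.append (Walk.cons d _ _ h₁)
    have h4 := hpot0.walk hwalk (fun _ _ => rfl) (fun _ _ _ _ => rfl) hdz hdω
    have h5 : (∑ S ∈ 𝒞, NC (rp S) dz) = 0 :=
      Finset.sum_eq_zero fun S hS => hcon _ (hrp S hS).1
    have h6 : (∑ S ∈ 𝒞, NC (rp S) dω) = 0 :=
      Finset.sum_eq_zero fun S hS => (hNC _ (mem_memF.1 (hrp S hS).1).1).2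
    rw [h5, h6, hone, hNL0] at h4
    exact absurd h4 (by decide)
  obtain ⟨o, ho, hoz⟩ := hmain
  obtain ⟨hmi, hn⟩ := mem_memF.1 ho
  refine ⟨o, hmi, hn, fun l hl => ?_⟩
  by_contra hcon
  push Not at hcon
  obtain ⟨m, f, hm, hf0, hfm, hs, hij, hrel, -⟩ := T.class_cycle hP hmi (hnd o)
  have hoff : ∀ x, (∀ e, T.Rel σ o e → T.src e ≠ x) →
      OffV T (fun f => ∑ e ∈ clF T σ o, T.mu [T.nxt (T.nxt e)] f) x := by
    intro x hx g hg
    apply Finset.sum_eq_zero
    intro e he
    have hre := mem_clF.1 he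
    have hap : ∃ e', T.Rel σ o e' ∧ T.src e' = T.apex e := by
      obtain ⟨i, hi, rfl⟩ := (hrel e).1 hre
      rcases (show i + 1 ≤ m from hi).lt_or_eq with h1 | h1
      · exact ⟨f (i + 1), (hrel _).2 ⟨i + 1, h1, rfl⟩, hs i hi⟩
      · refine ⟨o, T.rel_refl hmi, ?_⟩
        rw [← hs i hi, h1, hfm]
    obtain ⟨e', he', hae⟩ := hap
    apply T.mu_zero
    · intro h
      rw [List.mem_singleton] at h
      rcases hg with hg | hg
      · apply hx e' he'
        rw [hae, ← hg, h]; rfl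
      · apply hx e hre
        rw [← hg, h, T.tgt_nxt2]
    · intro h
      rw [List.mem_singleton] at h
      rcases hg with hg | hg
      · apply hx e hre
        have h8 := T.tgt_rev g
        rw [h, T.tgt_nxt2] at h8
        rw [h8, hg]
      · apply hx e' he'
        have h8 := T.src_rev g
        rw [h] at h8
        rw [hae, ← hg, ← h8]; rfl
  have h7 := (hNC o hmi).1.walk hl (hoff _ fun e he => (hcon e he).1)
    (fun g hg => hoff _ fun e he h => (hcon e he).2 g hg h.symm) hdz hdω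
  rw [(hNC o hmi).2] at h7
  exact hoz h7

/-! ### the hypothesis on the centre from a separating set -/

theorem exists_first {S : Set V} {u v : V} {l : List D} (hl : T.Walk u v l)
    (h : u ∈ S ∨ ∃ g ∈ l, T.tgt g ∈ S) :
    ∃ x ∈ S, ∃ l', T.Walk u x l' ∧ ∀ g ∈ l', T.src g ∉ S := by
  classical
  induction hl with
  | nil v =>
    rcases h with h | ⟨g, hg, -⟩
    · exact ⟨v, h, [], Walk.nil _, by simp⟩
    · simp at hg
  | cons g w l _ ih =>
    by_cases hs : T.src g ∈ S
    · exact ⟨_, hs, [], Walk.nil _, by simp⟩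
    · have h2 : T.tgt g ∈ S ∨ ∃ g' ∈ l, T.tgt g' ∈ S := by
        rcases h with h | ⟨g', hg', h'⟩
        · exact absurd h hs
        · rcases List.mem_cons.1 hg' with rfl | hg'
          · exact Or.inl h'
          · exact Or.inr ⟨g', hg', h'⟩
      obtain ⟨x, hx, l', hl', h3⟩ := ih h2
      refine ⟨x, hx, g :: l', Walk.cons g _ _ hl', fun e he => ?_⟩
      rcases List.mem_cons.1 he with rfl | he
      · exact hs
      · exact h3 e he

/-- The part of a walk up to a source on it. -/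
theorem walk_upto {u v : V} {l : List D} (hl : T.Walk u v l) {e : D} (he : e ∈ l) :
    ∃ l', T.Walk u (T.src e) l' ∧ ∀ g ∈ l', g ∈ l := by
  induction hl with
  | nil v => simp at he
  | cons g w l _ ih =>
    rcases List.mem_cons.1 he with rfl | he
    · exact ⟨[], Walk.nil _, by simp⟩
    · obtain ⟨l', h1, h2⟩ := ih he
      refine ⟨g :: l', Walk.cons g _ _ h1, fun x hx => ?_⟩
      rcases List.mem_cons.1 hx with rfl | hx
      · simp
      · exact List.mem_cons_of_mem _ (h2 x hx)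

/-- **The main cycle from a separating set.** `S` is a set of vertices of the colour of the sources,
joined inside that colour to `src d`; every walk from `z₀` to `ω` meets `S`; the target side is
joined to `ω` off `S` and off the left vertices. -/
theorem exists_main_of_sep [Finite D] (hP : T.Planar) (hnl : ∀ f, T.src f ≠ T.tgt f)
    {σ : V → Bool} {d : D} (hb : T.Bi σ d) {z₀ ω : V} (hdz : ∃ dz, T.src dz = z₀)
    (hdω : ∃ dω, T.src dω = ω)
    (hz : ∀ n, T.src ((T.st σ)^[n] d) ≠ z₀ ∧ T.tgt ((T.st σ)^[n] d) ≠ z₀ ∧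
      T.apex ((T.st σ)^[n] d) ≠ z₀)
    {S : Set V} (hS : ∀ x ∈ S, ∃ l, T.Walk (T.src d) x l ∧ ∀ g ∈ l, σ (T.tgt g) = σ (T.src d))
    (h₁ : ∃ l, T.Walk (T.tgt d) ω l ∧ ∀ g ∈ l, T.tgt g ∉ S ∧
      ∀ i, T.src ((T.st σ)^[i] d) ≠ T.tgt g)
    (hex : ∃ l, T.Walk z₀ ω l)
    (hsep : ∀ l, T.Walk z₀ ω l → z₀ ∈ S ∨ ∃ g ∈ l, T.tgt g ∈ S) :
    ∃ o, T.Mi σ o ∧ (∃ n, (T.st σ)^[n] d = o) ∧ ∀ l, T.Walk z₀ ω l →
      ∃ e, T.Rel σ o e ∧ (T.src e = z₀ ∨ ∃ g ∈ l, T.tgt g = T.src e) := by
  classical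
  obtain ⟨l₁, h₁, h₁'⟩ := h₁
  have hcS : ∀ x ∈ S, σ x = σ (T.src d) := by
    intro x hx
    obtain ⟨l, hl, hc⟩ := hS x hx
    rcases hl.reverse.casesOn' with ⟨_, h2⟩ | ⟨e, l', h2, h3, _⟩
    · rw [h2]
    · have he : e ∈ (l.map T.rev).reverse := by rw [h2]; simp
      rw [List.mem_reverse, List.mem_map] at he
      obtain ⟨g, hg, rfl⟩ := he
      rw [← h3, T.src_rev]; exact hc g hg
  have hright : ∀ i, T.tgt ((T.st σ)^[i] d) ∉ S := by
    intro i hi
    have := hcS _ hi
    rw [T.col_tgt_iter σ d i] at this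
    exact hb this.symm
  refine exists_main hP hnl hb hdz hdω hz ⟨l₁, h₁, fun g hg => (h₁' g hg).2⟩ ?_
  obtain ⟨l₀, hl₀⟩ := hex
  obtain ⟨x, hx, l', hl', hoff⟩ := exists_first hl₀ (hsep l₀ hl₀)
  obtain ⟨lx, hlx, hcx⟩ := hS x hx
  -- no right vertex on the first part
  have hkey : ∀ e ∈ l', ∀ i, T.tgt ((T.st σ)^[i] d) ≠ T.src e := by
    intro e he i hi
    obtain ⟨l'', h3, h4⟩ := walk_upto hl' he
    have h5 := (T.rw_walk hb i).reverse
    rw [hi] at h5
    have h6 : T.Walk z₀ ω (l'' ++ (((T.rw' σ d i).map T.rev).reverse ++ l₁)) :=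
      h3.append (h5.append h₁)
    rcases hsep _ h6 with h7 | ⟨g, hg, hgS⟩
    · rcases hl'.casesOn' with ⟨h8, _⟩ | ⟨e', l3, h8, h9, _⟩
      · rw [h8] at he; simp at he
      · exact hoff e' (by rw [h8]; simp) (by rw [h9]; exact h7)
    · rw [List.mem_append, List.mem_append] at hg
      rcases hg with hg | hg | hg
      · rcases h3.tgt_mem g hg with h8 | ⟨e', he', h8⟩
        · rw [h8] at hgS; exact hoff e he hgS
        · rw [← h8] at hgS; exact hoff e' (h4 e' he') hgS
      · rw [List.mem_reverse, List.mem_map] at hg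
        obtain ⟨g', hg', rfl⟩ := hg
        obtain ⟨j, -, h8, -⟩ := T.rw_mem hb hg'
        rw [T.tgt_rev, h8] at hgS
        exact hright j hgS
      · exact (h₁' g hg).1 hgS
  refine ⟨lx ++ (l'.map T.rev).reverse, hlx.append hl'.reverse, fun g hg i => ?_⟩
  rcases List.mem_append.1 hg with hg | hg
  · intro hi
    have := hcx g hg
    rw [← hi, T.col_tgt_iter σ d i] at this
    exact hb this.symm
  · rw [List.mem_reverse, List.mem_map] at hg
    obtain ⟨g', hg', rfl⟩ := hg
    rw [T.tgt_rev]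
    exact hkey g' hg' i

end Vale.Agent.P148.R2.H871
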