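import Vale.Agent.P148.R2.H258.A5

/-!
# Non crossing visits of a strand, classes as sums over times
-/

namespace Vale.Agent.P148.R2.H871

open Function Vale.Agent.P148.R2.H258

variable {V D : Type*} (T : Tri V D)

/-- The source of the `i`-th dart of a strand. -/
noncomputable def sa (σ : V → Bool) (o : D) (i : ℕ) : V := T.src ((T.st σ)^[i] o)

/-- The period of the strand. -/
noncomputable def per (σ : V → Bool) (o : D) : ℕ := minimalPeriod (T.st σ) o

theorem sa_zero (σ : V → Bool) (o : D) : sa T σ o 0 = T.src o := rfl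

theorem per_pos [Finite D] (σ : V → Bool) (o : D) : 0 < per T σ o := T.pos_period σ o

theorem sa_add_per (σ : V → Bool) (o : D) (i : ℕ) : sa T σ o (i + per T σ o) = sa T σ o i := by
  unfold sa per
  rw [iterate_add_apply, iterate_minimalPeriod]

theorem sa_per (σ : V → Bool) (o : D) : sa T σ o (per T σ o) = T.src o := by
  have := sa_add_per T σ o 0
  rwa [zero_add] at this

theorem sa_add (σ : V → Bool) (o : D) (i j : ℕ) : sa T σ ((T.st σ)^[i] o) j = sa T σ o (i + j) := by
  unfold sa
  rw [← iterate_add_apply, add_comm]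

theorem per_iter [Finite D] (σ : V → Bool) (o : D) (i : ℕ) :
    per T σ ((T.st σ)^[i] o) = per T σ o := T.period_iter σ o i

/-- If the source changes, the dart is a minority dart. -/
theorem mi_of_ne {σ : V → Bool} {o : D} (hb : T.Bi σ o) {i : ℕ}
    (h : sa T σ o (i + 1) ≠ sa T σ o i) : T.Mi σ ((T.st σ)^[i] o) := by
  by_contra hc
  apply h
  unfold sa
  rw [iterate_succ', comp_apply]
  exact T.src_st_nmi ((T.bi_iter i).2 hb) hc

theorem sa_succ_mi {σ : V → Bool} {o : D} {i : ℕ} (h : T.Mi σ ((T.st σ)^[i] o)) :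
    sa T σ o (i + 1) = T.apex ((T.st σ)^[i] o) := by
  unfold sa
  rw [iterate_succ', comp_apply, T.src_st_mi h]

theorem exists_block [Finite D] (hP : T.Planar) {σ : V → Bool} {d : D} (h : T.Mi σ d)
    (hg : T.apex d ≠ T.src d) {n : ℕ} (h1 : 1 ≤ n) (h2 : n ≤ per T σ d) :
    ∃ r, (∀ k ≤ r, T.pos σ d k < per T σ d) ∧ T.pos σ d r < n ∧ n ≤ T.pos σ d (r + 1) := by
  classical
  have hex : ∃ r, n ≤ T.pos σ d (r + 1) := by
    by_contra hc
    push Not at hc
    have hlt : ∀ k, T.pos σ d k < minimalPeriod (T.st σ) d := by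
      intro k
      cases k with
      | zero => rw [T.pos_zero]; exact T.pos_period σ d
      | succ k => exact lt_of_lt_of_le (hc k) h2
    have hge : ∀ k, k ≤ T.pos σ d k := by
      intro k
      induction k with
      | zero => exact Nat.zero_le _
      | succ k ih =>
        have := (T.pos_step hP h hg k (fun l _ => hlt l)).1
        omega
    have := hge (n + 1)
    have := hc n
    omega
  refine ⟨Nat.find hex, ?_, ?_, Nat.find_spec hex⟩
  · intro k hk
    cases k with
    | zero => rw [T.pos_zero]; exact T.pos_period σ d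
    | succ k =>
      have := Nat.find_min hex (show k < Nat.find hex by omega)
      omega
  · rcases Nat.eq_zero_or_pos (Nat.find hex) with h0 | h0
    · rw [h0, T.pos_zero]; omega
    · have := Nat.find_min hex (show Nat.find hex - 1 < Nat.find hex by omega)
      rw [Nat.sub_add_cancel h0] at this
      omega

/-- The visits of the left hugging walk of a strand do not cross. -/
theorem non_cross [Finite D] (hP : T.Planar) {σ : V → Bool} {o : D} (hb : T.Bi σ o)
    {i j k l : ℕ} (hij : i < j) (hjk : j < k) (hkl : k < l) (hl : l ≤ i + per T σ o)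
    (hik : sa T σ o k = sa T σ o i) (hjl : sa T σ o l = sa T σ o j) :
    sa T σ o j = sa T σ o i := by
  classical
  by_contra hne
  set L := per T σ o with hL
  -- the last visit of `u` before `j`
  obtain ⟨i', hi1, hi2, hi3, hi4⟩ : ∃ i', i ≤ i' ∧ i' < j ∧ sa T σ o i' = sa T σ o i ∧
      ∀ t, i' < t → t < j → sa T σ o t ≠ sa T σ o i := by
    have hPi : (fun t => t < j ∧ sa T σ o t = sa T σ o i) i := ⟨hij, rfl⟩
    refine ⟨Nat.findGreatest (fun t => t < j ∧ sa T σ o t = sa T σ o i) j, ?_, ?_, ?_, ?_⟩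
    · exact Nat.le_findGreatest hij.le hPi
    · exact (Nat.findGreatest_spec (P := fun t => t < j ∧ sa T σ o t = sa T σ o i) hij.le hPi).1
    · exact (Nat.findGreatest_spec (P := fun t => t < j ∧ sa T σ o t = sa T σ o i) hij.le hPi).2
    · intro t h1 h2 h3
      exact Nat.findGreatest_is_greatest (P := fun t => t < j ∧ sa T σ o t = sa T σ o i) h1 h2.le
        ⟨h2, h3⟩
  have hch : sa T σ o (i' + 1) ≠ sa T σ o i' := by
    rw [hi3]
    rcases (show i' + 1 ≤ j by omega).lt_or_eq with h1 | h1
    · exact hi4 _ (by omega) h1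
    · rw [h1]; exact hne
  have hm : T.Mi σ ((T.st σ)^[i'] o) := mi_of_ne T hb hch
  set d := (T.st σ)^[i'] o with hd
  have hap : sa T σ o (i' + 1) = T.apex d := sa_succ_mi T hm
  have hg : T.apex d ≠ T.src d := by
    rw [← hap]; exact hch
  have hLd : per T σ d = L := per_iter T σ o i'
  have hsd : ∀ t, sa T σ d t = sa T σ o (i' + t) := fun t => sa_add T σ o i' t
  obtain ⟨r, hr1, hr2, hr3⟩ := exists_block T hP hm hg (n := j - i') (by omega)
    (by rw [hLd]; omega)
  obtain ⟨g1, g2, g3, g4⟩ := T.pos_props hP hm hg r hr1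
  obtain ⟨q1, q2⟩ := T.pos_step hP hm hg r hr1
  change _ ≤ per T σ d at q2
  rw [hLd] at q2
  set p := T.pos σ d r with hp
  set q := T.pos σ d (r + 1) with hq
  have hu : sa T σ o (i' + L) = sa T σ o i := by rw [sa_add_per, hi3]
  rcases q2.lt_or_eq with hqL | hqL
  · have hr1' : ∀ k ≤ r + 1, T.pos σ d k < minimalPeriod (T.st σ) d := by
      intro k hk
      rcases Nat.lt_succ_iff_lt_or_eq.1 (Nat.lt_succ_of_le hk) with h1 | h1
      · exact hr1 k (by omega)
      · rw [h1, ← hq]
        change q < per T σ d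
        rw [hLd]; exact hqL
    obtain ⟨-, -, D2, -⟩ := T.pos_props hP hm hg (r + 1) hr1'
    rw [← hq] at D2
    have key : ∀ x y, 1 ≤ x → x ≤ q → q < y → y ≤ L → sa T σ o (i' + x) ≠ sa T σ o (i' + y) := by
      intro x y a1 a2 a3 a4
      have := D2 x y a1 a2 a3 (by change y ≤ per T σ d; rw [hLd]; exact a4)
      rw [← hsd, ← hsd]
      exact this
    have hlq : l - i' ≤ q := by
      by_contra hc
      push Not at hc
      have := key (j - i') (l - i') (by omega) hr3 hc (by omega)
      rw [show i' + (j - i') = j by omega, show i' + (l - i') = l by omega] at this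
      exact this hjl.symm
    have := key (k - i') L (by omega) (by omega) hqL le_rfl
    rw [show i' + (k - i') = k by omega, hu] at this
    exact this hik
  · -- the next visit after `p` is `u`
    have h7 : sa T σ o (i' + q) = sa T σ o (i' + (p + 1)) := by
      rw [← hsd, ← hsd]
      have e1 : sa T σ d q = T.src (T.nx σ ((T.st σ)^[p] d)) := by
        unfold sa; rw [hq, T.iter_pos_succ]
      rw [e1, T.src_nx g1, sa_succ_mi T g1]
    rw [hqL, hu] at h7
    rcases (show i' + (p + 1) ≤ j by omega).lt_or_eq with h8 | h8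
    · exact hi4 _ (by omega) h8 h7.symm
    · rw [h8] at h7
      exact hne h7.symm

/-- Membership in the class of `o` in terms of times. -/
theorem rel_iter [Finite D] {σ : V → Bool} {o : D} (h : T.Mi σ o) {n : ℕ} (hn : n < per T σ o) :
    T.Rel σ o ((T.st σ)^[n] o) ↔ T.Mi σ ((T.st σ)^[n] o) ∧ T.Disj σ o n := by
  constructor
  · intro hr
    exact ⟨hr.2.1, T.rel_pos hn hr⟩
  · rintro ⟨h1, h2⟩
    exact ⟨h, h1, n, hn, rfl, h2⟩

theorem disj_iff {σ : V → Bool} {o : D} {n : ℕ} : T.Disj σ o n ↔
    ∀ i j, 1 ≤ i → i ≤ n → n < j → j ≤ per T σ o → sa T σ o i ≠ sa T σ o j := Iff.rfl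

open Classical in
/-- A sum over the class of `o` as a sum over times. -/
theorem cls_eq_sum [Fintype D] {σ : V → Bool} {o : D} (h : T.Mi σ o) {M : Type*} [AddCommMonoid M]
    (Θ : D → M) : (∑ e, if T.Rel σ e o then Θ e else 0) =
      ∑ n ∈ Finset.range (per T σ o),
        if T.Mi σ ((T.st σ)^[n] o) ∧ T.Disj σ o n then Θ ((T.st σ)^[n] o) else 0 := by
  have hinj : Set.InjOn (fun n => (T.st σ)^[n] o) (Finset.range (per T σ o)) := by
    intro a ha b hb hab
    simp only [Finset.coe_range, Set.mem_Iio] at ha hb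
    exact (iterate_eq_iterate_iff_of_lt_minimalPeriod ha hb).1 hab
  rw [← Finset.sum_filter, ← Finset.sum_filter]
  refine (Finset.sum_bij (fun n _ => (T.st σ)^[n] o) ?_ ?_ ?_ ?_).symm
  · intro n hn
    simp only [Finset.mem_filter, Finset.mem_range] at hn
    simp only [Finset.mem_filter, Finset.mem_univ, true_and]
    exact T.rel_symm ((rel_iter T h hn.1).2 hn.2)
  · intro a ha b hb hab
    simp only [Finset.mem_filter] at ha hb
    exact hinj (by simpa using ha.1) (by simpa using hb.1) hab
  · intro e he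
    simp only [Finset.mem_filter, Finset.mem_univ, true_and] at he
    have he' := T.rel_symm he
    obtain ⟨h1, h2, n, hn, rfl, hd⟩ := he'
    refine ⟨n, ?_, rfl⟩
    simp only [Finset.mem_filter, Finset.mem_range]
    exact ⟨hn, h2, hd⟩
  · intro n _
    rfl

end Vale.Agent.P148.R2.H871
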