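import Vale.Agent.P148.R2.H871.N0b

/-!
# Telescoping along the class of a face
-/

namespace Vale.Agent.P148.R2.H871

open Function Vale.Agent.P148.R2.H258

variable {V V1 D : Type*} {T : Tri V D}

/-- `n` is the time of a member of the class of `o`. -/
def Mem (T : Tri V D) (σ : V → Bool) (o : D) (n : ℕ) : Prop :=
  n < per T σ o ∧ T.Mi σ ((T.st σ)^[n] o) ∧ T.Disj σ o n

theorem mem_iff_rel [Finite D] {σ : V → Bool} {o : D} (h : T.Mi σ o) {n : ℕ}
    (hn : n < per T σ o) : Mem T σ o n ↔ T.Rel σ o ((T.st σ)^[n] o) := by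
  rw [rel_iter T h hn]
  exact ⟨fun hh => hh.2, fun hh => ⟨hn, hh⟩⟩

theorem mem_zero [Finite D] {σ : V → Bool} {o : D} (h : T.Mi σ o) : Mem T σ o 0 :=
  ⟨per_pos T σ o, h, by intro i j a1 a2; omega⟩

/-- The next member of the class (or the end of the period). -/
theorem exists_next [Finite D] (hP : T.Planar) {σ : V → Bool} {o : D} (h : T.Mi σ o)
    (hg : T.apex o ≠ T.src o) {n : ℕ} (hn : Mem T σ o n) :
    ∃ m, n < m ∧ m ≤ per T σ o ∧ (m < per T σ o → Mem T σ o m) ∧ sa T σ o m = sa T σ o (n + 1) ∧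
      (∀ k, n < k → k < m → ¬ Mem T σ o k) ∧
      (∀ j, m < j → j ≤ n + per T σ o → sa T σ o j ≠ sa T σ o m) := by
  set L := per T σ o with hL
  set d := (T.st σ)^[n] o with hd
  have hr : T.Rel σ o d := (mem_iff_rel h hn.1).1 hn
  have hgd : T.apex d ≠ T.src d := by
    obtain ⟨m, f, -, -, -, -, -, hrel, hnd⟩ := T.class_cycle hP h hg
    obtain ⟨i, hi, hie⟩ := (hrel d).1 hr
    rw [hie]; exact hnd i hi
  have hm := hn.2.1
  have hdL : per T σ d = L := per_iter T σ o n
  have h1 := T.one_le_jst hm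
  have h2 := T.jst_lt hm hgd
  change _ < per T σ d at h2
  rw [hdL] at h2
  set J := T.jst σ d with hJ
  have hsJ : sa T σ o (n + J) = sa T σ o (n + 1) := by
    rw [← sa_add, ← sa_add]
    change T.src ((T.st σ)^[J] d) = T.src ((T.st σ)^[1] d)
    rw [T.jst_spec hm, T.src_iter_one hm]
  have hrn : T.Rel σ o ((T.st σ)^[J] d) := T.rel_trans hr (T.rel_nx hP hm hgd)
  have hJle : n + J ≤ L := by
    by_contra hc
    push Not at hc
    -- then the apex of `d` is visited before `n`
    have e1 : sa T σ o (n + J - L) = sa T σ o (n + J) := by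
      have := sa_add_per T σ o (n + J - L)
      rw [Nat.sub_add_cancel (by omega)] at this
      exact this.symm
    exact hn.2.2 (n + J - L) (n + 1) (by omega) (by omega) (by omega) (by
      have := hn.1; change n + 1 ≤ per T σ o; omega) (e1.trans hsJ)
  refine ⟨n + J, by omega, hJle, ?_, hsJ, ?_, ?_⟩
  · intro hlt
    rw [mem_iff_rel h hlt]
    rwa [hd, ← iterate_add_apply, add_comm] at hrn
  · rintro k k1 k2 ⟨-, -, k3⟩
    exact k3 (n + 1) (n + J) (by omega) (by omega) (by omega) hJle hsJ.symm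
  · intro j j1 j2 hj
    have := T.jst_max (σ := σ) (d := d) (k := j - n) (by omega)
      (by change _ ≤ per T σ d; rw [hdL]; omega)
    apply this
    rw [← T.src_iter_one hm]
    change sa T σ d (j - n) = sa T σ d 1
    rw [hd, sa_add, sa_add, show n + (j - n) = j by omega, hj, hsJ]

open Classical in
/-- **Telescoping** along the class of `o` between two members. -/
theorem tele [Finite D] (hP : T.Planar) {σ : V → Bool} {o : D} (h : T.Mi σ o)
    (hg : T.apex o ≠ T.src o) {A : Type*} [AddCommGroup A] (f : V → A) :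
    ∀ k u v, v - u ≤ k → Mem T σ o u → (Mem T σ o v ∨ v = per T σ o) → u ≤ v →
      ∑ n ∈ Finset.Ico u v, (if Mem T σ o n then f (sa T σ o (n + 1)) - f (sa T σ o n) else 0) =
        f (sa T σ o v) - f (sa T σ o u) := by
  intro k
  induction k with
  | zero =>
    intro u v h1 _ _ h4
    have : u = v := by omega
    subst this
    simp
  | succ k ih =>
    intro u v h1 h2 h3 h4
    rcases h4.eq_or_lt with h5 | h5
    · subst h5; simp
    obtain ⟨m, m1, m2, m3, m4, m5, -⟩ := exists_next hP h hg h2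
    have hmv : m ≤ v := by
      by_contra hc
      push Not at hc
      rcases h3 with h3 | h3
      · exact m5 v h5 hc h3
      · omega
    have hsplit : ∑ n ∈ Finset.Ico u v,
        (if Mem T σ o n then f (sa T σ o (n + 1)) - f (sa T σ o n) else 0) =
        (∑ n ∈ Finset.Ico u m,
          (if Mem T σ o n then f (sa T σ o (n + 1)) - f (sa T σ o n) else 0)) +
        ∑ n ∈ Finset.Ico m v,
          (if Mem T σ o n then f (sa T σ o (n + 1)) - f (sa T σ o n) else 0) := by
      rw [Finset.sum_Ico_consecutive _ m1.le hmv]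
    have hfirst : ∑ n ∈ Finset.Ico u m,
        (if Mem T σ o n then f (sa T σ o (n + 1)) - f (sa T σ o n) else 0) =
        f (sa T σ o m) - f (sa T σ o u) := by
      rw [← Finset.sum_Ico_consecutive _ (Nat.le_succ u) m1, Finset.sum_eq_zero (s := Finset.Ico (u + 1) m)]
      · simp [h2, m4]
      · intro n hn
        rw [Finset.mem_Ico] at hn
        rw [if_neg (m5 n (by omega) hn.2)]
    rw [hsplit, hfirst]
    rcases m2.lt_or_eq with m6 | m6
    · rw [ih m v (by omega) (m3 m6) h3 hmv]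
      abel
    · have : v = m := by
        rcases h3 with h3 | h3
        · have := h3.1; omega
        · omega
      subst this
      simp

variable {T1 : Tri V1 D} {π : V → V1} {σ : V → Bool} {σ1 : V1 → Bool} {o : D}
  {P₁ P₂ : Set V} {t₁ s₁ t₂ s₂ : ℕ}

theorem Collar.good [Finite D] (hK : Collar T T1 π σ σ1 o P₁ P₂) : T.apex o ≠ T.src o := by
  intro h
  exact hK.pi12 _ hK.apex_mem _ hK.src_mem (by rw [h])

theorem Collar.not_both [Finite D] (hK : Collar T T1 π σ σ1 o P₁ P₂) {v : V} (h1 : v ∈ P₁)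
    (h2 : v ∈ P₂) : False := hK.pi12 v h1 v h2 rfl

theorem Collar.t1_lt [Finite D] (hK : Collar T T1 π σ σ1 o P₁ P₂)
    (hl : Landing T σ o P₁ P₂ t₁ s₁ t₂ s₂) : t₁ < per T σ o := by
  rcases hl.t1_le.lt_or_eq with h | h
  · exact h
  · exfalso
    have := hl.t1_mem
    rw [h, sa_per] at this
    exact hK.not_both this hK.src_mem

/-- The last visit of `P₁` is a member of the class. -/
theorem Collar.mem_t1 [Finite D] (hK : Collar T T1 π σ σ1 o P₁ P₂)
    (hl : Landing T σ o P₁ P₂ t₁ s₁ t₂ s₂) : Mem T σ o t₁ := by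
  have hb := hK.mi.bi
  have h1 := hK.t1_lt hl
  have hsa := hK.contr.sa hK.agree hb
  have hm1 : T1.Mi σ1 o := (hK.contr.mi hK.agree hb 0).2 hK.mi
  have k1 := hl.one_le_s1
  have k2 := hl.s1_le
  refine ⟨h1, ?_, ?_⟩
  · apply mi_of_ne T hb
    intro h
    exact hl.t1_last (t₁ + 1) (by omega) (by omega) (by rw [h]; exact hl.t1_mem)
  · intro i j a1 a2 a3 a4 a5
    change sa T σ o i = sa T σ o j at a5
    change j ≤ per T σ o at a4
    have hj := hl.t1_last j a3 a4
    have hi1 : i ≠ 1 := by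
      rintro rfl
      rw [sa_one hK.mi] at a5
      exact hj (by rw [← a5]; exact hK.apex_mem)
    have hi2 : i ≠ t₁ := by
      rintro rfl
      exact hj (by rw [← a5]; exact hl.t1_mem)
    have h1t : H871.sa T1 σ1 o t₁ = H871.sa T1 σ1 o 1 := by
      rw [hsa, hsa, sa_one hK.mi]
      exact hK.pi1 _ hl.t1_mem _ hK.apex_mem
    have := non_cross T1 hK.planar1 hm1.bi (i := 1) (j := i) (k := t₁) (l := j) (by omega)
      (by omega) a3 (by rw [hK.contr.per hK.agree hb]; omega) h1t (by rw [hsa, hsa, a5])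
    rw [hsa, hsa] at this
    rcases hK.inj i 1 this with h8 | h8 | h8
    · rw [sa_one hK.mi] at h8
      exact hj (by rw [← a5, h8]; exact hK.apex_mem)
    · exact hj (by rw [← a5]; exact h8.1)
    · rw [sa_one hK.mi] at h8
      exact hK.not_both hK.apex_mem h8.2

/-- The step onto the landing vertex of `P₂` is a member of the class. -/
theorem Collar.mem_t2 [Finite D] (hK : Collar T T1 π σ σ1 o P₁ P₂)
    (hl : Landing T σ o P₁ P₂ t₁ s₁ t₂ s₂) : Mem T σ o (t₂ - 1) := by
  have hb := hK.mi.bi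
  have h12 := hK.t1_lt_t2 hl
  have hsa := hK.contr.sa hK.agree hb
  have hm1 : T1.Mi σ1 o := (hK.contr.mi hK.agree hb 0).2 hK.mi
  have k1 := hl.one_le_s1
  have k2 := hl.s1_le
  have k3 := hl.t2_le
  have k4 := hl.s2_le
  refine ⟨by omega, ?_, ?_⟩
  · apply mi_of_ne T hb
    rw [Nat.sub_add_cancel hl.one_le_t2]
    intro h
    exact hl.t2_first (t₂ - 1) (by omega) (by omega) (by rw [← h]; exact hl.t2_mem)
  · intro i j a1 a2 a3 a4 a5
    change sa T σ o i = sa T σ o j at a5
    change j ≤ per T σ o at a4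
    have hi := hl.t2_first i a1 (by omega)
    have hj1 : j ≠ t₂ := by
      rintro rfl
      exact hi (by rw [a5]; exact hl.t2_mem)
    have hj2 : j ≠ per T σ o := by
      rintro rfl
      rw [sa_per] at a5
      exact hi (by rw [a5]; exact hK.src_mem)
    have h2L : H871.sa T1 σ1 o (per T σ o) = H871.sa T1 σ1 o t₂ := by
      rw [hsa, hsa, sa_per]
      exact (hK.pi2 _ hl.t2_mem _ hK.src_mem).symm
    have := non_cross T1 hK.planar1 hm1.bi (i := i) (j := t₂) (k := j) (l := per T σ o)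
      (by omega) (by omega) (by omega) (by rw [hK.contr.per hK.agree hb]; omega)
      (by rw [hsa, hsa, a5]) h2L
    rw [hsa, hsa] at this
    rcases hK.inj t₂ i this with h8 | h8 | h8
    · exact hi (by rw [← h8]; exact hl.t2_mem)
    · exact hK.not_both h8.1 hl.t2_mem
    · exact hi h8.2

/-- The landing time `s₂` is a member of the class or the end of the period. -/
theorem Collar.mem_s2 [Finite D] (hK : Collar T T1 π σ σ1 o P₁ P₂)
    (hl : Landing T σ o P₁ P₂ t₁ s₁ t₂ s₂) : Mem T σ o s₂ ∨ s₂ = per T σ o := by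
  obtain ⟨m, m1, m2, m3, m4, m5, m6⟩ := exists_next hK.planar hK.mi hK.good (hK.mem_t2 hl)
  have h12 := hK.t1_lt_t2 hl
  have k3 := hl.t2_le
  have k4 := hl.s2_le
  rw [Nat.sub_add_cancel hl.one_le_t2] at m4
  have : m = s₂ := by
    rcases lt_trichotomy m s₂ with h | h | h
    · exact absurd (hl.s2_eq.trans m4.symm) (m6 s₂ h (by omega))
    · exact h
    · exact absurd m4 (hl.s2_last m h m2)
  subst this
  rcases m2.lt_or_eq with h | h
  · exact Or.inl (m3 h)
  · exact Or.inr h

open Classical in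
/-- Displacement of the crossing portion: telescoping with the actual vertices. -/
theorem Collar.tele_cross [Fintype D] {A : Type*} [AddCommGroup A]
    (hK : Collar T T1 π σ σ1 o P₁ P₂) (hl : Landing T σ o P₁ P₂ t₁ s₁ t₂ s₂) (f : V → A) :
    (∑ e, if T1.Rel σ1 e o then f (T.apex e) - f (T.src e) else 0) =
      (f (T.apex o) - f (T.src o)) + (f (sa T σ o t₂) - f (sa T σ o t₁)) := by
  have hb := hK.mi.bi
  have hper := hK.contr.per hK.agree hb
  have hm1 : T1.Mi σ1 o := (hK.contr.mi hK.agree hb 0).2 hK.mi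
  have h12 := hK.t1_lt_t2 hl
  have k1 := hl.one_le_s1
  have k2 := hl.s1_le
  have k3 := hl.t2_le
  have k4 := hl.s2_le
  rw [cls_eq_sum T1 hm1, hper]
  have hF : ∀ n ∈ Finset.range (per T σ o),
      (if T1.Mi σ1 ((T1.st σ1)^[n] o) ∧ T1.Disj σ1 o n then
        f (T.apex ((T1.st σ1)^[n] o)) - f (T.src ((T1.st σ1)^[n] o)) else 0) =
      (if n = 0 then f (T.apex o) - f (T.src o) else 0) +
      (if t₁ ≤ n ∧ n < t₂ then (if Mem T σ o n then f (sa T σ o (n + 1)) - f (sa T σ o n) else 0)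
        else 0) := by
    intro n hn
    rw [Finset.mem_range] at hn
    rw [hK.contr.iter hK.agree hb, hK.contr.mi hK.agree hb]
    rcases Nat.eq_zero_or_pos n with h0 | h0
    · subst h0
      have e2 : T1.Disj σ1 o 0 := by intro i j a1 a2; omega
      have e3 : ¬ (t₁ ≤ 0 ∧ 0 < t₂) := by omega
      rw [iterate_zero, id_eq, if_pos ⟨hK.mi, e2⟩, if_pos rfl, if_neg e3, add_zero]
    · have hn0 : n ≠ 0 := by omega
      rw [hK.disj1_iff hl h0 hn, if_neg hn0, zero_add]
      by_cases h1 : t₁ ≤ n ∧ n < t₂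
      · rw [if_pos h1]
        by_cases h2 : Mem T σ o n
        · rw [if_pos h2, if_pos ⟨h2.2.1, h1.1, h1.2, h2.2.2⟩, sa_succ_mi T h2.2.1]
          rfl
        · rw [if_neg h2, if_neg]
          rintro ⟨a1, -, -, a2⟩
          exact h2 ⟨hn, a1, a2⟩
      · rw [if_neg h1, if_neg]
        rintro ⟨-, a1, a2, -⟩
        exact h1 ⟨a1, a2⟩
  rw [Finset.sum_congr rfl hF, Finset.sum_add_distrib]
  congr 1
  · rw [Finset.sum_ite_eq' (Finset.range (per T σ o)) 0, if_pos]
    rw [Finset.mem_range]; omega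
  · rw [← Finset.sum_filter]
    have hfil : (Finset.range (per T σ o)).filter (fun n => t₁ ≤ n ∧ n < t₂) =
        Finset.Ico t₁ t₂ := by
      ext n
      simp only [Finset.mem_filter, Finset.mem_range, Finset.mem_Ico]
      omega
    rw [hfil]
    have e1 := tele hK.planar hK.mi hK.good f (t₂ - 1 - t₁) t₁ (t₂ - 1) le_rfl (hK.mem_t1 hl)
      (Or.inl (hK.mem_t2 hl)) (by omega)
    rw [← Finset.sum_Ico_consecutive _ (show t₁ ≤ t₂ - 1 by omega) (show t₂ - 1 ≤ t₂ by omega), e1]
    have e2 : Finset.Ico (t₂ - 1) t₂ = {t₂ - 1} := by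
      ext n
      simp only [Finset.mem_Ico, Finset.mem_singleton]
      omega
    rw [e2, Finset.sum_singleton, if_pos (hK.mem_t2 hl), Nat.sub_add_cancel hl.one_le_t2]
    abel

/-- Displacement of the first side. -/
theorem Collar.tele_left [Finite D] {A : Type*} [AddCommGroup A]
    (hK : Collar T T1 π σ σ1 o P₁ P₂) (hl : Landing T σ o P₁ P₂ t₁ s₁ t₂ s₂)
    (hc1 : ∀ i, 1 ≤ i → i ≤ s₁ → sa T σ o i ∈ P₁) (f : V → A) :
    sideSum T σ o 1 s₁ (fun e => f (T.apex e) - f (T.src e)) =
      f (sa T σ o t₁) - f (T.apex o) := by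
  classical
  have k1 := hl.one_le_s1
  have k2 := hl.s1_le
  have k3 := hK.t1_lt hl
  have e1 := tele hK.planar hK.mi hK.good f t₁ 0 t₁ (by omega) (mem_zero hK.mi)
    (Or.inl (hK.mem_t1 hl)) (by omega)
  rw [← Finset.sum_Ico_consecutive _ (show 0 ≤ 1 by omega) (show 1 ≤ t₁ by omega),
    ← Finset.sum_Ico_consecutive _ k1 k2] at e1
  have e2 : Finset.Ico 0 1 = {0} := by decide
  rw [e2, Finset.sum_singleton, if_pos (mem_zero hK.mi), zero_add, sa_one hK.mi] at e1
  have e3 : ∑ n ∈ Finset.Ico s₁ t₁,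
      (if Mem T σ o n then f (sa T σ o (n + 1)) - f (sa T σ o n) else 0) = 0 := by
    apply Finset.sum_eq_zero
    intro n hn
    rw [Finset.mem_Ico] at hn
    rw [if_neg]
    rintro ⟨-, -, a3⟩
    have := (hK.disj_left hl hc1 (by omega) hn.2).1 a3
    omega
  have e4 : ∑ n ∈ Finset.Ico 1 s₁,
      (if Mem T σ o n then f (sa T σ o (n + 1)) - f (sa T σ o n) else 0) =
      sideSum T σ o 1 s₁ (fun e => f (T.apex e) - f (T.src e)) := by
    unfold sideSum
    apply Finset.sum_congr rfl
    intro n hn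
    rw [Finset.mem_Ico] at hn
    by_cases hm : T.Mi σ ((T.st σ)^[n] o)
    · have hiff : Mem T σ o n ↔ (T.Mi σ ((T.st σ)^[n] o) ∧ DisjOn T σ o 1 s₁ n) := by
        unfold Mem
        rw [hK.disj_left hl hc1 hn.1 (by omega)]
        constructor
        · rintro ⟨-, a2, -, a3⟩; exact ⟨a2, a3⟩
        · rintro ⟨a2, a3⟩; exact ⟨by omega, a2, by omega, a3⟩
      by_cases hmem : Mem T σ o n
      · rw [if_pos hmem, if_pos (hiff.1 hmem), sa_succ_mi T hm]; rfl
      · rw [if_neg hmem, if_neg (fun hh => hmem (hiff.2 hh))]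
    · rw [if_neg (fun hh => hm hh.2.1), if_neg (fun hh => hm hh.1)]
  rw [e3, add_zero, e4, sa_zero] at e1
  have : sideSum T σ o 1 s₁ (fun e => f (T.apex e) - f (T.src e)) =
      (f (sa T σ o t₁) - f (T.src o)) - (f (T.apex o) - f (T.src o)) := by
    rw [← e1]; abel
  rw [this]; abel

/-- Displacement of the second side. -/
theorem Collar.tele_right [Finite D] {A : Type*} [AddCommGroup A]
    (hK : Collar T T1 π σ σ1 o P₁ P₂) (hl : Landing T σ o P₁ P₂ t₁ s₁ t₂ s₂)
    (hc2 : ∀ j, s₂ ≤ j → j ≤ per T σ o → sa T σ o j ∈ P₂) (f : V → A) :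
    sideSum T σ o s₂ (per T σ o) (fun e => f (T.apex e) - f (T.src e)) =
      f (T.src o) - f (sa T σ o t₂) := by
  classical
  have h12 := hK.t1_lt_t2 hl
  have k1 := hl.one_le_s1
  have k2 := hl.s1_le
  have k3 := hl.t2_le
  have k4 := hl.s2_le
  rcases k4.lt_or_eq with hlt | heq
  · have hms : Mem T σ o s₂ := by
      rcases hK.mem_s2 hl with h | h
      · exact h
      · omega
    have e1 := tele hK.planar hK.mi hK.good f (per T σ o - s₂) s₂ (per T σ o) le_rfl hms
      (Or.inr rfl) k4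
    rw [sa_per, hl.s2_eq] at e1
    rw [← e1]
    unfold sideSum
    apply Finset.sum_congr rfl
    intro n hn
    rw [Finset.mem_Ico] at hn
    by_cases hm : T.Mi σ ((T.st σ)^[n] o)
    · have hiff : Mem T σ o n ↔ (T.Mi σ ((T.st σ)^[n] o) ∧ DisjOn T σ o s₂ (per T σ o) n) := by
        unfold Mem
        rw [hK.disj_right hl hc2 (by omega) hn.2]
        constructor
        · rintro ⟨-, a2, -, a3⟩; exact ⟨a2, a3⟩
        · rintro ⟨a2, a3⟩; exact ⟨hn.2, a2, hn.1, a3⟩
      by_cases hmem : Mem T σ o n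
      · rw [if_pos hmem, if_pos (hiff.1 hmem), sa_succ_mi T hm]; rfl
      · rw [if_neg hmem, if_neg (fun hh => hmem (hiff.2 hh))]
    · rw [if_neg (fun hh => hm hh.1), if_neg (fun hh => hm hh.2.1)]
  · have e1 := hl.s2_eq
    rw [heq, sa_per] at e1
    unfold sideSum
    rw [heq, Finset.Ico_self, Finset.sum_empty, e1, sub_self]

/-- Backward iterates of the strand are forward iterates of the reversed strand. -/
theorem st_rev_iter (T : Tri V D) (σ : V → Bool) (o : D) (k : ℕ) :
    (T.st σ)^[k] (T.rev ((T.st σ)^[k] (T.rev o))) = o := by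
  induction k generalizing o with
  | zero => simp [T.rev_rev]
  | succ k ih =>
    have h1 : T.st σ (T.rev ((T.st σ)^[k + 1] (T.rev o))) = T.rev ((T.st σ)^[k] (T.rev o)) := by
      rw [iterate_succ', comp_apply]
      exact T.st_rev_st σ _
    rw [iterate_succ_apply, h1, ih]

theorem back_iter [Finite D] (T : Tri V D) (σ : V → Bool) (o : D) {k : ℕ}
    (hk : k ≤ per T σ o) :
    (T.st σ)^[per T σ o - k] o = T.rev ((T.st σ)^[k] (T.rev o)) := by
  have hinj : Injective ((T.st σ)^[k]) := (T.st_injective σ).iterate k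
  apply hinj
  rw [st_rev_iter, ← iterate_add_apply, Nat.add_sub_cancel' hk]
  exact iterate_minimalPeriod

end Vale.Agent.P148.R2.H871
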