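import Vale.Agent.P148.R2.H871.CW2
import Vale.Agent.P148.R2.H592.Contr
import Vale.Agent.P148.R2.H203.T2

/-!
# P148, row CW, part 3: the classes of the inside world are plane classes

`X` finite with triangular hull, `O i` connected disjoint sets of points (the frozen set), all of the
same colour `c` in the contracted world, such that the frozen points adjacent to free points have
the real colour `c`.  Every class of the contracted world all of whose majority vertices are free is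
(literally, as a set of darts) the class of a loop of the plane configuration which is local in `Q`.
-/

set_option linter.unusedSectionVars false

open Set Metric Function
open scoped ENNReal

namespace Vale.Agent.P148.R2.H871

open H592 H184 H203 Vale.Agent.P148.R2.H258

/-! ### colours on the points of `X` only -/

theorem Nx.congr_col {X Q : Set ℂ} {c c' : ℂ → Bool} (hc : ∀ x ∈ X, c x = c' x) {d d' : Dt}
    (hd : LF X Q d) (h : Nx c d d') : Nx c' d d' := by
  unfold Nx at h ⊢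
  rwa [← hc _ hd.1.1, ← hc _ hd.1.2.1, ← hc _ hd.1.2.2]

theorem Mn.congr_col {X Q : Set ℂ} {c c' : ℂ → Bool} (hc : ∀ x ∈ X, c x = c' x) {d : Dt}
    (hd : LF X Q d) (h : Mn c d) : Mn c' d := by
  unfold Mn at h ⊢
  rwa [← hc _ hd.1.1, ← hc _ hd.1.2.1, ← hc _ hd.1.2.2]

theorem Lp.congr_col {X Q : Set ℂ} {c c' : ℂ → Bool} (hc : ∀ x ∈ X, c x = c' x) {n : ℕ}
    {f : ℕ → Dt} (h : Lp X Q c n f) : Lp X Q c' n f :=
  ⟨h.pos, h.lf, fun i => Nx.congr_col hc (h.lf i) (h.nx i), h.per, h.min⟩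

theorem inL_congr {X Q : Set ℂ} {c c' : ℂ → Bool} (hc : ∀ x ∈ X, c x = c' x) {d : Dt} :
    InL X Q c d ↔ InL X Q c' d :=
  ⟨fun ⟨n, f, h1, h2⟩ => ⟨n, f, Lp.congr_col hc h1, h2⟩,
    fun ⟨n, f, h1, h2⟩ => ⟨n, f, Lp.congr_col (fun x hx => (hc x hx).symm) h1, h2⟩⟩

theorem rl_congr' {X Q : Set ℂ} {c c' : ℂ → Bool} (hc : ∀ x ∈ X, c x = c' x) {d e : Dt}
    (h : Rl X Q c d e) : Rl X Q c' d e := by
  obtain ⟨h1, h2, n, m, f, h3, h4, h5, h6, h7⟩ := h
  refine ⟨Mn.congr_col (Q := Q) hc ?_ h1, Mn.congr_col (Q := Q) hc ?_ h2, n, m, f,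
    Lp.congr_col hc h3, h4, h5, h6, h7⟩
  · rw [← h5]; exact h3.lf 0
  · rw [← h6]; exact h3.lf m

theorem rl_congr {X Q : Set ℂ} {c c' : ℂ → Bool} (hc : ∀ x ∈ X, c x = c' x) {d e : Dt} :
    Rl X Q c d e ↔ Rl X Q c' d e :=
  ⟨rl_congr' hc, rl_congr' fun x hx => (hc x hx).symm⟩

/-! ### contractions of `tri258` -/

section

variable {X : Set ℂ} {b : ZMod 3 → ℂ} (h : HullTri X b)

theorem contr_tri258 {V V1 : Type*} {π₀ : ℂ → V} {π₁ : ℂ → V1} (h₀ : Fib X π₀) (h₁ : Fib X π₁)
    {ρ : V → V1} (hρ : ∀ x ∈ X, π₁ x = ρ (π₀ x)) :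
    Contr (h.tri258 π₀ h₀) (h.tri258 π₁ h₁) ρ where
  rev _ := rfl
  nxt _ := rfl
  src d := hρ _ (h.nbr_th d).1

variable {ι : Type*} [Inhabited ι] {O : ι → Set ℂ}

/-- The colouring of the contracted world. -/
def col1 (X : Set ℂ) (O : ι → Set ℂ) (col : ℂ → Bool) (c : Bool) : CV X O → Bool :=
  Sum.elim (fun _ => c) (fun v => col v.1)

/-- The frozen vertices of the plane world. -/
def frz (X : Set ℂ) (O : ι → Set ℂ) : Set X := {x | ∃ j, x.1 ∈ O j}

theorem idmap_val {x₀ : X} {x : ℂ} (hx : x ∈ X) : (idmap X x₀ x).1 = x := by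
  unfold idmap
  rw [dif_pos hx]

theorem world (hd : Pairwise fun i j => Disjoint (O i) (O j)) (hF : Fib X (cmap X O)) (x₀ : X)
    {col : ℂ → Bool} {c : Bool}
    (hbd : ∀ u v, nbr X u v → (∀ j, u ∉ O j) → (∃ j, v ∈ O j) → col v = c) :
    World (h.tri258 (idmap X x₀) (fib_id X x₀)) (h.tri258 (cmap X O) hF)
      (fun x : X => cmap X O x.1) (fun x : X => col x.1) (col1 X O col c) (frz X O) c where
  contr := contr_tri258 h _ _ fun x hx => by
    show cmap X O x = cmap X O (idmap X x₀ x).1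
    rw [idmap_val hx]
  inj u v hu huv := by
    have hu' : ∀ j, u.1 ∉ O j := fun j hj => hu ⟨j, hj⟩
    have h1 : cmap X O u.1 = Sum.inr ⟨u.1, u.2, hu'⟩ := cmap_of_free u.2 hu'
    have h2 : cmap X O v.1 = Sum.inr ⟨u.1, u.2, hu'⟩ := by rw [← h1]; exact huv.symm
    exact Subtype.ext (eq_of_cmap h2).symm
  free v hv := by
    have hv' : ∀ j, v.1 ∉ O j := fun j hj => hv ⟨j, hj⟩
    show col1 X O col c (cmap X O v.1) = col v.1
    rw [cmap_of_free v.2 hv']
    rfl
  frozen v hv := by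
    obtain ⟨j, hj⟩ := hv
    show col1 X O col c (cmap X O v.1) = c
    rw [cmap_of_mem hd hj]
    rfl
  bdry d hs ht := by
    rw [tgt_eq] at ht ⊢
    rw [src_eq] at hs
    have h1 := (h.nbr_th d).1
    have h2 := (h.nbr_th d).2.1
    have e1 : (idmap X x₀ (dt d).1).1 = tail d := idmap_val h1
    have e2 : (idmap X x₀ (dt d).2.1).1 = head d := idmap_val h2
    show col (idmap X x₀ (dt d).2.1).1 = c
    rw [e2]
    refine hbd _ _ (h.nbr_th d) (fun j hj => hs ⟨j, ?_⟩) ?_
    · rw [e1]; exact hj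
    · obtain ⟨j, hj⟩ := ht
      exact ⟨j, by rw [e2] at hj; exact hj⟩

/-- Classes of the contracted world whose majority vertices are all free. -/
def Av (hF : Fib X (cmap X O)) (σ1 : CV X O → Bool) (q : Fc X b × ZMod 3) : Prop :=
  (h.tri258 (cmap X O) hF).Mi σ1 q ∧
    ∀ f, (h.tri258 (cmap X O) hF).Rel σ1 q f → ∀ j, tail f ∉ O j

variable (hd : Pairwise fun i j => Disjoint (O i) (O j)) (hF : Fib X (cmap X O)) (x₀ : X)
  {col : ℂ → Bool} {c : Bool}
  (hbd : ∀ u v, nbr X u v → (∀ j, u ∉ O j) → (∃ j, v ∈ O j) → col v = c)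
  {Q : Set ℂ} (hQ : ∀ q : Fc X b × ZMod 3, (∀ j, tail q ∉ O j) → LF X Q (dt q))

theorem src0 (q : Fc X b × ZMod 3) :
    ((h.tri258 (idmap X x₀) (fib_id X x₀)).src q).1 = tail q := idmap_val (h.nbr_th q).1

include hQ in
theorem lf_of_free {q : Fc X b × ZMod 3} (hq : (∀ j, tail q ∉ O j) ∨ (∀ j, head q ∉ O j)) :
    LF X Q (dt q) := by
  rcases hq with hq | hq
  · exact hQ q hq
  · have h1 : (∀ j, tail ((q.1, q.2 + 1) : Fc X b × ZMod 3) ∉ O j) := by
      rw [HullTri.tail_next]; exact hq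
    have h2 := hQ _ h1
    rw [dt_next] at h2
    exact LF_rt.1 h2

section finite

variable [Finite X]

include hd hbd hQ in
/-- **CW3.** Classes with free majority vertices are plane classes of local loops. -/
theorem av_plane {q : Fc X b × ZMod 3} (hq : Av h hF (col1 X O col c) q) :
    InL X Q col (dt q) ∧ ∀ r, (h.tri258 (cmap X O) hF).Rel (col1 X O col c) q r ↔
      Rl X Q col (dt q) (dt r) := by
  classical
  have x₀ : X := ⟨tail q, (h.nbr_th q).1⟩
  set T := h.tri258 (idmap X x₀) (fib_id X x₀) with hT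
  set T1 := h.tri258 (cmap X O) hF with hT1
  set σ : X → Bool := fun x => col x.1 with hσ
  have hW := world h hd hF x₀ hbd
  have hfin := h.finite_Fc
  have hm1 : T1.Mi (col1 X O col c) q := hq.1
  have hfq : ∀ j, tail q ∉ O j := hq.2 q (T1.rel_refl hm1)
  have hsB : ∀ f : Fc X b × ZMod 3, (∀ j, tail f ∉ O j) → T.src f ∉ frz X O := by
    rintro f hf ⟨j, hj⟩
    rw [src0 h x₀ f] at hj
    exact hf j hj
  have hB := hsB q hfq
  have hm : T.Mi σ q := (hW.mi_iff (Or.inl hB)).1 hm1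
  have hpc : ∀ x ∈ X, pc (idmap X x₀) σ x = col x := by
    intro x hx
    show col (idmap X x₀ x).1 = col x
    rw [idmap_val hx]
  have hins := hW.ins_of_bi (Or.inl hB) (f := q)
  have hL : InL X Q (pc (idmap X x₀) σ) (dt q) := by
    rw [inL_iff h (idmap X x₀) (fib_id X x₀)]
    refine ⟨hm.bi, fun i => ?_⟩
    have h1 := (hW.ins_iter hm.bi hins i).or ((T.bi_iter i).2 hm.bi)
    refine lf_of_free (O := O) hQ ?_
    rcases h1 with h1 | h1
    · refine Or.inl fun j hj => h1 ⟨j, ?_⟩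
      rw [src0 h x₀]; exact hj
    · refine Or.inr fun j hj => h1 ⟨j, ?_⟩
      rw [tgt_eq]
      show (idmap X x₀ (head _)).1 ∈ O j
      rw [idmap_val (h.nbr_th _).2.1]
      exact hj
  have hnd : T.apex q ≠ T.src q := by
    rw [apex_eq, src_eq]
    intro he
    have h2 := congrArg Subtype.val he
    have hl := hL.lf
    rw [idmap_val hl.1.2.2, idmap_val hl.1.1] at h2
    exact hl.ne.2.2 h2
  have hfaith : Faith X Q (idmap X x₀) := by
    intro x hx _ y hy hxy
    have := congrArg Subtype.val hxy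
    rwa [idmap_val hx, idmap_val hy] at this
  refine ⟨(inL_congr hpc).1 hL, fun r => ?_⟩
  have key : T1.Rel (col1 X O col c) q r ↔ T.Rel σ q r := by
    by_cases hc : σ (T.src q) = c
    · refine hW.rel_of_avoid (h.planar258 _ _) (h.planar258 _ _) hm hnd hB ?_
      intro f hf
      exact hsB f (hq.2 f hf)
    · exact hW.rel_of_ne hm hc hB
  rw [key, rel_iff h (idmap X x₀) (fib_id X x₀) hfaith hL, rl_congr hpc]

theorem Av.congr {q r : Fc X b × ZMod 3} (hq : Av h hF (col1 X O col c) q)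
    (hr : (h.tri258 (cmap X O) hF).Rel (col1 X O col c) q r) : Av h hF (col1 X O col c) r := by
  have hfin := h.finite_Fc
  exact ⟨hr.2.1, fun f hf => hq.2 f ((h.tri258 (cmap X O) hF).rel_trans hr hf)⟩

include hd hbd hQ in
theorem av_image {q : Fc X b × ZMod 3} (hq : Av h hF (col1 X O col c) q) :
    cl X Q col (dt q) = dt '' {e | (h.tri258 (cmap X O) hF).Rel (col1 X O col c) e q} := by
  have hfin := h.finite_Fc
  obtain ⟨h1, h2⟩ := av_plane h hd hF hbd hQ hq
  ext e
  constructor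
  · intro he
    have hl := (Rl.inL_right h.three he).lf
    obtain ⟨r, rfl⟩ := exists_dt h hl
    exact ⟨r, (h.tri258 _ _).rel_symm ((h2 r).2 he), rfl⟩
  · rintro ⟨r, hr, rfl⟩
    exact (h2 r).1 ((h.tri258 _ _).rel_symm hr)

include hd hbd hQ in
/-- The value of a class with free majority vertices. -/
theorem av_cls [Fintype (Fc X b × ZMod 3)] (Θ : Dt → ℂ) {q : Fc X b × ZMod 3}
    (hq : Av h hF (col1 X O col c) q) :
    (h.tri258 (cmap X O) hF).cls (col1 X O col c) q (wt h (cmap X O) hF Θ) =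
      H184.W X Q col Θ (dt q) := by
  classical
  unfold H184.W
  rw [av_image h hd hF hbd hQ hq, finsum_mem_image (dt_injective h).injOn,
    finsum_eq_sum_of_fintype]
  unfold H258.Tri.cls
  refine Finset.sum_congr rfl fun e _ => ?_
  rw [finsum_eq_if]
  by_cases he : (h.tri258 (cmap X O) hF).Rel (col1 X O col c) e q
  · rw [if_pos he, if_pos (show e ∈ {e | (h.tri258 (cmap X O) hF).Rel (col1 X O col c) e q} from he)]
    have he' := (h.tri258 (cmap X O) hF).rel_symm he
    have hAe := hq.congr h hF he'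
    have h1 := (av_plane h hd hF hbd hQ hAe).1.lf
    have ht := hq.2 e he'
    have hap : ∀ j, vc e.1 e.2 ∉ O j := by
      -- the apex is the tail of the next member
      have hnd : (h.tri258 (cmap X O) hF).apex e ≠ (h.tri258 (cmap X O) hF).src e := by
        rw [apex_eq, src_eq]
        intro hh
        have h3 : cmap X O (dt e).1 = Sum.inr ⟨tail e, h1.1.1, ht⟩ := cmap_of_free h1.1.1 ht
        rw [h3] at hh
        exact h1.ne.2.2 (eq_of_cmap hh)
      obtain ⟨m, f, hm0, h0, hfm, hs, hinj, hrel, -⟩ :=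
        (h.tri258 (cmap X O) hF).class_cycle (h.planar258 _ _) hAe.1 hnd
      have h4 := hs 0 (by omega)
      rw [h0, apex_eq, src_eq] at h4
      intro j hj
      have h5 : cmap X O (dt e).2.2 = Sum.inl j := cmap_of_mem hd hj
      rw [h5] at h4
      have h6 : (dt (f (0 + 1))).1 ∈ X := (h.nbr_th _).1
      have h7 : tail (f (0 + 1)) ∈ O j := mem_of_cmap h6 h4
      have h8 : ∃ i < m, f (0 + 1) = f i := by
        rcases Nat.lt_or_ge 1 m with h9 | h9
        · exact ⟨1, h9, rfl⟩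
        · have : m = 1 := le_antisymm h9 hm0
          subst this
          exact ⟨0, Nat.one_pos, by rw [zero_add, hfm, h0]⟩
      exact hAe.2 _ ((hrel _).2 h8) j h7
    have hgood : (h.tri258 (cmap X O) hF).Good e := by
      have e1 : cmap X O (dt e).1 = Sum.inr ⟨tail e, h1.1.1, ht⟩ := cmap_of_free h1.1.1 ht
      have e2 : cmap X O (dt e).2.2 = Sum.inr ⟨vc e.1 e.2, h1.1.2.2, hap⟩ :=
        cmap_of_free h1.1.2.2 hap
      refine ⟨?_, ?_, ?_⟩
      · rw [src_eq, tgt_eq, e1]
        intro hh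
        exact h1.ne.1 (eq_of_cmap hh.symm).symm
      · rw [tgt_eq, apex_eq, e2]
        intro hh
        exact h1.ne.2.1 (eq_of_cmap hh)
      · rw [src_eq, apex_eq, e1]
        intro hh
        exact h1.ne.2.2 (eq_of_cmap hh)
    unfold wt
    rw [if_pos hgood]
  · rw [if_neg he, if_neg (show e ∉ {e | (h.tri258 (cmap X O) hF).Rel (col1 X O col c) e q} from he)]

include hd hbd hQ in
theorem av_ncl [Fintype (Fc X b × ZMod 3)] {q : Fc X b × ZMod 3}
    (hq : Av h hF (col1 X O col c) q) :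
    H203.ncl (h.tri258 (cmap X O) hF) (col1 X O col c) q = (cl X Q col (dt q)).ncard := by
  classical
  rw [av_image h hd hF hbd hQ hq, Set.ncard_image_of_injective _ (dt_injective h)]
  unfold H203.ncl
  rw [Finset.sum_boole, ← Set.ncard_coe_finset]
  congr 2
  ext e
  simp

include hd hbd hQ in
/-- **The energy of the classes with free majority vertices which are not local in the squares
`Q' i` is at most `MQ`.** -/
theorem tot_av_le [Fintype (Fc X b × ZMod 3)] {κ : Type*} (Q' : κ → Set ℂ) (Θ : Dt → ℂ) :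
    ENNReal.ofReal (tot (h.tri258 (cmap X O) hF) (col1 X O col c)
      (rs (fun q => Av h hF (col1 X O col c) q ∧ ¬ ∃ i, InL X (Q' i) col (dt q))
        (wt h (cmap X O) hF Θ))) ≤ MQ X Q Q' col Θ := by
  classical
  set T1 := h.tri258 (cmap X O) hF with hT1
  set σ1 := col1 X O col c with hσ1
  set S : Fc X b × ZMod 3 → Prop := fun q => Av h hF σ1 q ∧ ¬ ∃ i, InL X (Q' i) col (dt q) with hS
  have hsat : Sat T1 σ1 S := by
    intro q r hr hq
    refine ⟨hq.1.congr h hF hr, ?_⟩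
    rintro ⟨i, hi⟩
    refine hq.2 ⟨i, ?_⟩
    have h1 := ((av_plane h hd hF hbd hQ hq.1).2 r).1 hr
    exact InL.of_rl h.three (h1.symm h.three) hi
  have hnn : ∀ q, 0 ≤ ‖T1.cls σ1 q (rs S (wt h (cmap X O) hF Θ))‖ ^ 2 / H203.ncl T1 σ1 q :=
    fun q => div_nonneg (by positivity) (H203.ncl_nonneg _ _ _)
  rw [tot_eq, ENNReal.ofReal_sum_of_nonneg (fun d _ => hnn d)]
  unfold MQ
  rw [tsum_dt (Q := Q) h (fun d hd' => by
    by_contra hcon
    apply hd'
    have : ¬ InL X Q col d := fun hh => hcon hh.lf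
    rw [gg_zero Θ this]
    simp)]
  refine Finset.sum_le_sum fun q _ => ?_
  by_cases hq : S q
  · rw [hsat.cls_rs _ hq, if_neg hq.2]
    unfold gg
    rw [av_cls h hd hF hbd hQ Θ hq.1, av_ncl h hd hF hbd hQ hq.1]
  · rw [hsat.cls_rs' _ hq]
    simp

end finite

end

end Vale.Agent.P148.R2.H871
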