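import Vale.Agent.P148.R2.H871.N0b
import Vale.Agent.P148.R2.H659.Cyc

/-!
# P148, row CW, part 2: the world inside a monochromatic circuit

`T` is the plane world, `T1` the contraction of the frozen set `B` (everything outside the circuit,
circuit included), all frozen vertices have colour `c` in `T1`, and the frozen vertices adjacent to
free vertices have the real colour `c`.  Then strands and classes of the two worlds coincide, except
for the classes of colour `c` which pass through `B`.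
-/

namespace Vale.Agent.P148.R2.H871

open Function Vale.Agent.P148.R2.H258

variable {V V1 D : Type*}

/-- The world inside a circuit of colour `c`. -/
structure World (T : Tri V D) (T1 : Tri V1 D) (π : V → V1) (σ : V → Bool) (σ1 : V1 → Bool)
    (B : Set V) (c : Bool) : Prop where
  contr : Contr T T1 π
  inj : ∀ u v, u ∉ B → π u = π v → u = v
  free : ∀ v, v ∉ B → σ1 (π v) = σ v
  frozen : ∀ v, v ∈ B → σ1 (π v) = c
  bdry : ∀ d, T.src d ∉ B → T.tgt d ∈ B → σ (T.tgt d) = c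

/-- The ends of `f` whose colour is not `c` are free. -/
def Ins (T : Tri V D) (σ : V → Bool) (B : Set V) (c : Bool) (f : D) : Prop :=
  (σ (T.src f) ≠ c → T.src f ∉ B) ∧ (σ (T.tgt f) ≠ c → T.tgt f ∉ B)

variable {T : Tri V D} {T1 : Tri V1 D} {π : V → V1} {σ : V → Bool} {σ1 : V1 → Bool} {B : Set V}
  {c : Bool}

theorem World.col_tgt (hW : World T T1 π σ σ1 B c) {d : D} (h : T.src d ∉ B) :
    σ1 (π (T.tgt d)) = σ (T.tgt d) := by
  by_cases h1 : T.tgt d ∈ B
  · rw [hW.frozen _ h1, hW.bdry d h h1]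
  · exact hW.free _ h1

theorem World.col_apex (hW : World T T1 π σ σ1 B c) {d : D} (h : T.src d ∉ B) :
    σ1 (π (T.apex d)) = σ (T.apex d) := by
  have h1 := hW.col_tgt (d := T.rev (T.nxt (T.nxt d))) (by rw [T.src_rev, T.tgt_nxt2]; exact h)
  rwa [T.tgt_rev, T.src_nxt2] at h1

theorem World.bdry_apex (hW : World T T1 π σ σ1 B c) {d : D} (h : T.src d ∉ B)
    (h1 : T.apex d ∈ B) : σ (T.apex d) = c := by
  have h2 := hW.bdry (T.rev (T.nxt (T.nxt d))) (by rw [T.src_rev, T.tgt_nxt2]; exact h)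
    (by rw [T.tgt_rev, T.src_nxt2]; exact h1)
  rwa [T.tgt_rev, T.src_nxt2] at h2

/-- The colours agree at the three corners of a face with a free end. -/
theorem World.agree3 (hW : World T T1 π σ σ1 B c) {d : D} (h : T.src d ∉ B ∨ T.tgt d ∉ B) :
    σ1 (π (T.src d)) = σ (T.src d) ∧ σ1 (π (T.tgt d)) = σ (T.tgt d) ∧
      σ1 (π (T.apex d)) = σ (T.apex d) := by
  rcases h with h | h
  · exact ⟨hW.free _ h, hW.col_tgt h, hW.col_apex h⟩
  · refine ⟨?_, hW.free _ h, ?_⟩
    · have h1 := hW.col_tgt (d := T.rev d) (by rw [T.src_rev]; exact h)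
      rwa [T.tgt_rev] at h1
    · have h1 := hW.col_tgt (d := T.nxt d) (by rw [T.src_nxt']; exact h)
      rwa [T.tgt_nxt] at h1

theorem Ins.or {f : D} (h : Ins T σ B c f) (hb : T.Bi σ f) : T.src f ∉ B ∨ T.tgt f ∉ B := by
  by_cases h1 : σ (T.src f) = c
  · refine Or.inr (h.2 fun h2 => hb ?_)
    rw [h1, h2]
  · exact Or.inl (h.1 h1)

/-- The strand of an inside dart stays inside. -/
theorem World.ins_st (hW : World T T1 π σ σ1 B c) {f : D} (hb : T.Bi σ f) (h : Ins T σ B c f) :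
    Ins T σ B c (T.st σ f) := by
  by_cases hm : T.Mi σ f
  · refine ⟨?_, ?_⟩
    · rw [T.src_st_mi hm]
      intro h1 h2
      have h3 : σ (T.src f) ≠ c := by rw [← hm.2]; exact h1
      exact h1 (hW.bdry_apex (h.1 h3) h2)
    · rw [T.tgt_st_mi hm]; exact h.2
  · have ha := T.nmi_apex hb hm
    refine ⟨?_, ?_⟩
    · rw [T.src_st_nmi hb hm]; exact h.1
    · rw [T.tgt_st_nmi hb hm]
      intro h1 h2
      have h3 : σ (T.tgt f) ≠ c := by rw [← ha]; exact h1
      have h4 := hW.bdry (T.nxt f) (by rw [T.src_nxt']; exact h.2 h3)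
        (by rw [T.tgt_nxt]; exact h2)
      rw [T.tgt_nxt] at h4
      exact h1 h4

theorem World.ins_iter (hW : World T T1 π σ σ1 B c) {f : D} (hb : T.Bi σ f)
    (h : Ins T σ B c f) (n : ℕ) : Ins T σ B c ((T.st σ)^[n] f) := by
  induction n with
  | zero => exact h
  | succ n ih =>
    rw [iterate_succ', comp_apply]
    exact hW.ins_st ((T.bi_iter n).2 hb) ih

theorem World.agree (hW : World T T1 π σ σ1 B c) {f : D} (hb : T.Bi σ f) (h : Ins T σ B c f) :
    Agree T π σ σ1 f := by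
  intro n
  have h1 := hW.agree3 ((hW.ins_iter hb h n).or ((T.bi_iter n).2 hb))
  exact ⟨h1.1, h1.2.1⟩

/-- Inside darts are bichromatic in one world iff in the other. -/
theorem World.bi_iff (hW : World T T1 π σ σ1 B c) {f : D} (h : T.src f ∉ B ∨ T.tgt f ∉ B) :
    T1.Bi σ1 f ↔ T.Bi σ f := by
  have h1 := hW.agree3 h
  unfold Tri.Bi
  rw [hW.contr.src, hW.contr.tgt, h1.1, h1.2.1]

theorem World.mi_iff (hW : World T T1 π σ σ1 B c) {f : D} (h : T.src f ∉ B ∨ T.tgt f ∉ B) :
    T1.Mi σ1 f ↔ T.Mi σ f := by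
  have h1 := hW.agree3 h
  unfold Tri.Mi
  rw [hW.contr.src, hW.contr.tgt, hW.contr.apex, h1.1, h1.2.1, h1.2.2]

/-- A bichromatic dart with a free end is an inside dart. -/
theorem World.ins_of_bi (hW : World T T1 π σ σ1 B c) {f : D}
    (h : T.src f ∉ B ∨ T.tgt f ∉ B) : Ins T σ B c f := by
  rcases h with h | h
  · refine ⟨fun _ => h, fun h1 h2 => h1 (hW.bdry f h h2)⟩
  · refine ⟨fun h1 h2 => ?_, fun _ => h⟩
    have h3 := hW.bdry (T.rev f) (by rw [T.src_rev]; exact h) (by rw [T.tgt_rev]; exact h2)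
    rw [T.tgt_rev] at h3
    exact h1 h3

/-- Classes whose majority colour is not `c`: the same in both worlds. -/
theorem World.rel_of_ne [Finite D] (hW : World T T1 π σ σ1 B c) {q r : D} (hm : T.Mi σ q)
    (hc : σ (T.src q) ≠ c) (hq : T.src q ∉ B) : T1.Rel σ1 q r ↔ T.Rel σ q r := by
  have hi : Ins T σ B c q := hW.ins_of_bi (Or.inl hq)
  have hA := hW.agree hm.bi hi
  have hsrc : ∀ i, T.src ((T.st σ)^[i] q) ∉ B := by
    intro i
    refine (hW.ins_iter hm.bi hi i).1 ?_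
    rw [T.col_src_iter σ q i]; exact hc
  have hper : minimalPeriod (T1.st σ1) q = minimalPeriod (T.st σ) q := hW.contr.per hA hm.bi
  have hdis : ∀ n, T1.Disj σ1 q n ↔ T.Disj σ q n := by
    intro n
    unfold Tri.Disj
    rw [hper]
    refine forall_congr' fun i => forall_congr' fun j => ?_
    rw [hW.contr.iter hA hm.bi, hW.contr.iter hA hm.bi, hW.contr.src, hW.contr.src]
    constructor
    · exact fun h h1 h2 h3 h4 h5 => h h1 h2 h3 h4 (by rw [h5])
    · exact fun h h1 h2 h3 h4 h5 => h h1 h2 h3 h4 (hW.inj _ _ (hsrc i) h5)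
  unfold Tri.Rel
  rw [hper]
  have hmq : T1.Mi σ1 q ↔ T.Mi σ q := hW.mi_iff (Or.inl hq)
  constructor
  · rintro ⟨h1, h2, n, h3, h4, h5⟩
    rw [hW.contr.iter hA hm.bi] at h4
    subst h4
    exact ⟨hm, (hW.contr.mi hA hm.bi n).1 h2, n, h3, rfl, (hdis n).1 h5⟩
  · rintro ⟨h1, h2, n, h3, h4, h5⟩
    subst h4
    exact ⟨hmq.2 h1, (hW.contr.mi hA hm.bi n).2 h2, n, h3, hW.contr.iter hA hm.bi n, (hdis n).2 h5⟩

/-- Classes of colour `c` of the inside world which avoid the frozen set: the same in the plane. -/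
theorem World.rel_of_avoid [Finite D] (hP : T.Planar) (hP1 : T1.Planar)
    (hW : World T T1 π σ σ1 B c) {q r : D} (hm : T.Mi σ q) (hnd : T.apex q ≠ T.src q)
    (hq : T.src q ∉ B) (hav : ∀ f, T1.Rel σ1 q f → T.src f ∉ B) :
    T1.Rel σ1 q r ↔ T.Rel σ q r := by
  have hm1 : T1.Mi σ1 q := (hW.mi_iff (Or.inl hq)).2 hm
  have hi : Ins T σ B c q := hW.ins_of_bi (Or.inl hq)
  have hA := hW.agree hm.bi hi
  have hnd1 : T1.apex q ≠ T1.src q := by
    rw [hW.contr.apex, hW.contr.src]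
    exact fun h => hnd (hW.inj _ _ hq h.symm).symm
  obtain ⟨m, f, hm0, h0, hfm, hs, hinj, hrel, -⟩ := T1.class_cycle hP1 hm1 hnd1
  have hfB : ∀ i ≤ m, T.src (f i) ∉ B := by
    intro i hi
    rcases Nat.lt_or_ge i m with h | h
    · exact hav _ ((hrel _).2 ⟨i, h, rfl⟩)
    · have : i = m := le_antisymm hi h
      subst this
      rw [hfm]; exact hq
  have hit : ∀ i < m, ∃ n, (T.st σ)^[n] q = f i := by
    intro i hi
    obtain ⟨-, -, n, -, h4, -⟩ := (hrel (f i)).2 ⟨i, hi, rfl⟩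
    exact ⟨n, by rw [← hW.contr.iter hA hm.bi]; exact h4⟩
  have key : T.Rel σ (f 0) r ↔ ∃ i < m, r = f i := by
    refine T.cycle_class hP hm0 (by rw [hfm, h0]) ?_ ?_ ?_ (by rw [h0]; exact hnd) ?_ r
    · intro i hi
      obtain ⟨n, hn⟩ := hit i hi
      rw [← hn]
      refine (hW.contr.mi hA hm.bi n).1 ?_
      rw [hn]
      exact ((hrel _).2 ⟨i, hi, rfl⟩).2.1
    · intro i hi
      have h1 := hs i hi
      rw [hW.contr.src, hW.contr.apex] at h1
      exact hW.inj _ _ (hfB (i + 1) hi) h1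
    · intro i hi k hk hik
      refine hinj i hi k hk ?_
      rw [hW.contr.src, hW.contr.src, hik]
    · intro i hi
      obtain ⟨n, hn⟩ := hit i hi
      rw [h0, ← hn]
      refine ⟨T.rw' σ q n, T.rw_walk hm.bi n, ?_⟩
      intro e he
      obtain ⟨k, -, h1, h2⟩ := T.rw_mem hm.bi he
      rw [h1, h2, T.col_tgt_iter σ q k, T.col_tgt_iter σ q (k + 1)]
      exact ⟨rfl, rfl⟩
  rw [h0] at key
  rw [key, hrel]

end Vale.Agent.P148.R2.H871
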