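import Vale.Agent.P148.R2.H871.N0a

/-!
# Contractions and the exact decomposition of the class of a face
-/

namespace Vale.Agent.P148.R2.H871

open Function Vale.Agent.P148.R2.H258

variable {V V1 D : Type*}

/-- `T1` is the contraction of `T` by `π` (same darts). -/
structure Contr (T : Tri V D) (T1 : Tri V1 D) (π : V → V1) : Prop where
  rev : ∀ d, T1.rev d = T.rev d
  nxt : ∀ d, T1.nxt d = T.nxt d
  src : ∀ d, T1.src d = π (T.src d)

/-- The two colourings agree along the strand of `o`. -/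
def Agree (T : Tri V D) (π : V → V1) (σ : V → Bool) (σ1 : V1 → Bool) (o : D) : Prop :=
  ∀ n, σ1 (π (T.src ((T.st σ)^[n] o))) = σ (T.src ((T.st σ)^[n] o)) ∧
    σ1 (π (T.tgt ((T.st σ)^[n] o))) = σ (T.tgt ((T.st σ)^[n] o))

variable {T : Tri V D} {T1 : Tri V1 D} {π : V → V1} {σ : V → Bool} {σ1 : V1 → Bool} {o : D}

theorem Contr.tgt (hC : Contr T T1 π) (d : D) : T1.tgt d = π (T.tgt d) := by
  unfold Tri.tgt; rw [hC.rev, hC.src]

theorem Contr.apex (hC : Contr T T1 π) (d : D) : T1.apex d = π (T.apex d) := by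
  unfold Tri.apex; rw [hC.nxt, hC.nxt, hC.src]

theorem Agree.apex (hA : Agree T π σ σ1 o) (hb : T.Bi σ o) (n : ℕ) :
    σ1 (π (T.apex ((T.st σ)^[n] o))) = σ (T.apex ((T.st σ)^[n] o)) := by
  have h1 := hA (n + 1)
  rw [iterate_succ', comp_apply] at h1
  by_cases hm : T.Mi σ ((T.st σ)^[n] o)
  · rw [T.src_st_mi hm] at h1; exact h1.1
  · rw [T.tgt_st_nmi ((T.bi_iter n).2 hb) hm] at h1; exact h1.2

theorem Contr.st_eq (hC : Contr T T1 π) {f : D} (h1 : σ1 (π (T.src f)) = σ (T.src f))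
    (h2 : σ1 (π (T.tgt f)) = σ (T.tgt f)) (h3 : σ1 (π (T.apex f)) = σ (T.apex f)) :
    T1.st σ1 f = T.st σ f := by
  unfold Tri.st
  rw [hC.src, hC.tgt, hC.apex, h1, h2, h3, hC.rev, hC.nxt, hC.nxt, hC.rev]

theorem Contr.st_iter (hC : Contr T T1 π) (hA : Agree T π σ σ1 o) (hb : T.Bi σ o) (n : ℕ) :
    T1.st σ1 ((T.st σ)^[n] o) = T.st σ ((T.st σ)^[n] o) :=
  hC.st_eq (hA n).1 (hA n).2 (hA.apex hb n)

theorem Contr.iter (hC : Contr T T1 π) (hA : Agree T π σ σ1 o) (hb : T.Bi σ o) (n : ℕ) :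
    (T1.st σ1)^[n] o = (T.st σ)^[n] o := by
  induction n with
  | zero => rfl
  | succ n ih =>
    rw [iterate_succ', comp_apply, ih, hC.st_iter hA hb, iterate_succ', comp_apply]

theorem Contr.per (hC : Contr T T1 π) (hA : Agree T π σ σ1 o) (hb : T.Bi σ o) :
    per T1 σ1 o = per T σ o := by
  unfold H871.per
  rw [minimalPeriod_eq_minimalPeriod_iff]
  intro n
  unfold IsPeriodicPt IsFixedPt
  rw [hC.iter hA hb]

theorem Contr.sa (hC : Contr T T1 π) (hA : Agree T π σ σ1 o) (hb : T.Bi σ o) (n : ℕ) :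
    sa T1 σ1 o n = π (sa T σ o n) := by
  unfold H871.sa
  rw [hC.iter hA hb, hC.src]

theorem Contr.mi (hC : Contr T T1 π) (hA : Agree T π σ σ1 o) (hb : T.Bi σ o) (n : ℕ) :
    T1.Mi σ1 ((T.st σ)^[n] o) ↔ T.Mi σ ((T.st σ)^[n] o) := by
  unfold Tri.Mi
  rw [hC.src, hC.tgt, hC.apex, (hA n).1, (hA n).2, hA.apex hb n]

/-- Local disjointness of the hugging walk on a time interval. -/
def DisjOn (T : Tri V D) (σ : V → Bool) (o : D) (a b n : ℕ) : Prop :=
  ∀ i j, a ≤ i → i ≤ n → n < j → j ≤ b → sa T σ o i ≠ sa T σ o j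

/-- Data of the landing times. `P₁`, `P₂` are the two explored majority sets, `t₁` is the last
visit of `P₁`, `s₁` the first visit of the landing vertex of `P₁`, `t₂` the first visit of `P₂` and
`s₂` the last visit of the landing vertex of `P₂`. -/
structure Landing (T : Tri V D) (σ : V → Bool) (o : D) (P₁ P₂ : Set V) (t₁ s₁ t₂ s₂ : ℕ) :
    Prop where
  one_le_s1 : 1 ≤ s₁
  s1_le : s₁ ≤ t₁
  t1_le : t₁ ≤ per T σ o
  t1_mem : sa T σ o t₁ ∈ P₁
  t1_last : ∀ j, t₁ < j → j ≤ per T σ o → sa T σ o j ∉ P₁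
  s1_eq : sa T σ o s₁ = sa T σ o t₁
  s1_first : ∀ i, 1 ≤ i → i < s₁ → sa T σ o i ≠ sa T σ o t₁
  one_le_t2 : 1 ≤ t₂
  t2_le : t₂ ≤ s₂
  s2_le : s₂ ≤ per T σ o
  t2_mem : sa T σ o t₂ ∈ P₂
  t2_first : ∀ i, 1 ≤ i → i < t₂ → sa T σ o i ∉ P₂
  s2_eq : sa T σ o s₂ = sa T σ o t₂
  s2_last : ∀ j, s₂ < j → j ≤ per T σ o → sa T σ o j ≠ sa T σ o t₂

theorem exists_landing [Finite D] (T : Tri V D) (σ : V → Bool) (o : D) (P₁ P₂ : Set V)
    (h : T.Mi σ o) (h1 : T.apex o ∈ P₁) (h2 : T.src o ∈ P₂) :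
    ∃ t₁ s₁ t₂ s₂, Landing T σ o P₁ P₂ t₁ s₁ t₂ s₂ := by
  classical
  have hL := per_pos T σ o
  have e1 : sa T σ o 1 ∈ P₁ := by
    have : sa T σ o (0 + 1) = T.apex o := sa_succ_mi T (i := 0) h
    rw [zero_add] at this
    rwa [this]
  have e2 : sa T σ o (per T σ o) ∈ P₂ := by rw [sa_per]; exact h2
  -- last visit of `P₁`
  set Q1 : ℕ → Prop := fun t => 1 ≤ t ∧ sa T σ o t ∈ P₁ with hQ1
  have b1 := Nat.findGreatest_spec (P := Q1) (show 1 ≤ per T σ o from hL) ⟨le_rfl, e1⟩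
  have b2 : ∀ j, Nat.findGreatest Q1 (per T σ o) < j → j ≤ per T σ o → sa T σ o j ∉ P₁ := by
    intro j hj1 hj2 hj3
    exact Nat.findGreatest_is_greatest (P := Q1) hj1 hj2 ⟨by omega, hj3⟩
  have b3 : Nat.findGreatest Q1 (per T σ o) ≤ per T σ o := Nat.findGreatest_le _
  set t1 := Nat.findGreatest Q1 (per T σ o) with ht1
  -- first visit of the vertex
  have x1 : ∃ i, 1 ≤ i ∧ sa T σ o i = sa T σ o t1 := ⟨t1, b1.1, rfl⟩
  have c1 := Nat.find_spec x1
  have c2 : ∀ i, 1 ≤ i → i < Nat.find x1 → sa T σ o i ≠ sa T σ o t1 := by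
    intro i hi hi2 hi3
    exact Nat.find_min x1 hi2 ⟨hi, hi3⟩
  have c3 : Nat.find x1 ≤ t1 := Nat.find_le ⟨b1.1, rfl⟩
  -- first visit of `P₂`
  have x2 : ∃ i, 1 ≤ i ∧ sa T σ o i ∈ P₂ := ⟨_, hL, e2⟩
  have d1 := Nat.find_spec x2
  have d2 : ∀ i, 1 ≤ i → i < Nat.find x2 → sa T σ o i ∉ P₂ := by
    intro i hi hi2 hi3
    exact Nat.find_min x2 hi2 ⟨hi, hi3⟩
  have d3 : Nat.find x2 ≤ per T σ o := Nat.find_le ⟨hL, e2⟩
  set t2 := Nat.find x2 with ht2
  set Q2 : ℕ → Prop := fun t => sa T σ o t = sa T σ o t2 with hQ2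
  have f1 := Nat.findGreatest_spec (P := Q2) d3 rfl
  have f2 : ∀ j, Nat.findGreatest Q2 (per T σ o) < j → j ≤ per T σ o →
      sa T σ o j ≠ sa T σ o t2 := by
    intro j hj1 hj2 hj3
    exact Nat.findGreatest_is_greatest (P := Q2) hj1 hj2 hj3
  have f3 : Nat.findGreatest Q2 (per T σ o) ≤ per T σ o := Nat.findGreatest_le _
  have f4 : t2 ≤ Nat.findGreatest Q2 (per T σ o) := Nat.le_findGreatest d3 rfl
  exact ⟨t1, Nat.find x1, t2, Nat.findGreatest Q2 (per T σ o), c1.1, c3, b3, b1.2, b2, c1.2, c2,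
    d1.1, f4, f3, d1.2, d2, f1, f2⟩

/-- The standing assumptions of the exact collar decomposition. -/
structure Collar (T : Tri V D) (T1 : Tri V1 D) (π : V → V1) (σ : V → Bool) (σ1 : V1 → Bool)
    (o : D) (P₁ P₂ : Set V) : Prop where
  planar : T.Planar
  planar1 : T1.Planar
  contr : Contr T T1 π
  agree : Agree T π σ σ1 o
  mi : T.Mi σ o
  apex_mem : T.apex o ∈ P₁
  src_mem : T.src o ∈ P₂
  /-- `π` contracts `P₁` and `P₂` to two different vertices -/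
  pi1 : ∀ u ∈ P₁, ∀ v ∈ P₁, π u = π v
  pi2 : ∀ u ∈ P₂, ∀ v ∈ P₂, π u = π v
  pi12 : ∀ u ∈ P₁, ∀ v ∈ P₂, π u ≠ π v
  /-- apart from this `π` is injective on the majority vertices of the strand -/
  inj : ∀ i j, π (sa T σ o i) = π (sa T σ o j) → sa T σ o i = sa T σ o j ∨
    (sa T σ o i ∈ P₁ ∧ sa T σ o j ∈ P₁) ∨ (sa T σ o i ∈ P₂ ∧ sa T σ o j ∈ P₂)

section main

variable {P₁ P₂ : Set V} {t₁ s₁ t₂ s₂ : ℕ}

theorem sa_one (h : T.Mi σ o) : sa T σ o 1 = T.apex o := by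
  have : sa T σ o (0 + 1) = T.apex o := sa_succ_mi T (i := 0) h
  rwa [zero_add] at this

/-- The last visit of `P₁` precedes the first visit of `P₂`. -/
theorem Collar.t1_lt_t2 [Finite D] (hK : Collar T T1 π σ σ1 o P₁ P₂)
    (hl : Landing T σ o P₁ P₂ t₁ s₁ t₂ s₂) : t₁ < t₂ := by
  have hb := hK.mi.bi
  have hm1 : T1.Mi σ1 o := (hK.contr.mi hK.agree hb 0).2 hK.mi
  have hg1 : T1.apex o ≠ T1.src o := by
    rw [hK.contr.apex, hK.contr.src]
    exact hK.pi12 _ hK.apex_mem _ hK.src_mem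
  have hD := T1.disj_jst hK.planar1 hm1 hg1
  have hj := T1.jst_lt hm1 hg1
  change _ < per T1 σ1 o at hj
  rw [hK.contr.per hK.agree hb] at hj
  have hle : t₁ ≤ T1.jst σ1 o := by
    by_contra hc
    push Not at hc
    have := T1.jst_max (σ := σ1) (d := o) (k := t₁) hc
      (by change t₁ ≤ per T1 σ1 o; rw [hK.contr.per hK.agree hb]; exact hl.t1_le)
    apply this
    change H871.sa T1 σ1 o t₁ = _
    rw [hK.contr.sa hK.agree hb, hK.contr.apex]
    exact hK.pi1 _ hl.t1_mem _ hK.apex_mem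
  by_contra hc
  push Not at hc
  have := hD t₂ (per T σ o) hl.one_le_t2 (by omega) hj
    (by change _ ≤ per T1 σ1 o; rw [hK.contr.per hK.agree hb])
  apply this
  change H871.sa T1 σ1 o t₂ = H871.sa T1 σ1 o (per T σ o)
  rw [hK.contr.sa hK.agree hb, hK.contr.sa hK.agree hb, sa_per]
  exact hK.pi2 _ hl.t2_mem _ hK.src_mem

/-- Members of the class of `o` in the contraction: the crossing portion. -/
theorem Collar.disj1_iff [Finite D] (hK : Collar T T1 π σ σ1 o P₁ P₂)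
    (hl : Landing T σ o P₁ P₂ t₁ s₁ t₂ s₂) {n : ℕ} (hn1 : 1 ≤ n) (hn : n < per T σ o) :
    T1.Disj σ1 o n ↔ t₁ ≤ n ∧ n < t₂ ∧ T.Disj σ o n := by
  have hb := hK.mi.bi
  have hper := hK.contr.per hK.agree hb
  have hsa := hK.contr.sa hK.agree hb
  have h12 := hK.t1_lt_t2 hl
  rw [disj_iff, disj_iff, hper]
  constructor
  · intro hD
    refine ⟨?_, ?_, ?_⟩
    · by_contra hc
      push Not at hc
      apply hD 1 t₁ le_rfl hn1 hc hl.t1_le
      rw [hsa, hsa, sa_one hK.mi]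
      exact hK.pi1 _ hK.apex_mem _ hl.t1_mem
    · by_contra hc
      push Not at hc
      apply hD t₂ (per T σ o) hl.one_le_t2 hc hn le_rfl
      rw [hsa, hsa, sa_per]
      exact hK.pi2 _ hl.t2_mem _ hK.src_mem
    · intro i j h1 h2 h3 h4 h5
      apply hD i j h1 h2 h3 h4
      rw [hsa, hsa, h5]
  · rintro ⟨h1, h2, hD⟩ i j h3 h4 h5 h6 h7
    rw [hsa, hsa] at h7
    rcases hK.inj i j h7 with h8 | h8 | h8
    · exact hD i j h3 h4 h5 h6 h8
    · exact hl.t1_last j (by omega) h6 h8.2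
    · exact hl.t2_first i h3 (by omega) h8.1

theorem Collar.disj_left [Finite D] (hK : Collar T T1 π σ σ1 o P₁ P₂)
    (hl : Landing T σ o P₁ P₂ t₁ s₁ t₂ s₂) (hc1 : ∀ i, 1 ≤ i → i ≤ s₁ → sa T σ o i ∈ P₁)
    {n : ℕ} (_hn1 : 1 ≤ n) (hn : n < t₁) :
    T.Disj σ o n ↔ n < s₁ ∧ DisjOn T σ o 1 s₁ n := by
  have hb := hK.mi.bi
  have h12 := hK.t1_lt_t2 hl
  rw [disj_iff]
  constructor
  · intro hD
    have h1 : n < s₁ := by
      by_contra hc
      push Not at hc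
      exact hD s₁ t₁ hl.one_le_s1 hc hn hl.t1_le hl.s1_eq
    refine ⟨h1, fun i j a1 a2 a3 a4 => hD i j a1 a2 a3 ?_⟩
    have := hl.s1_le; have := hl.t1_le
    omega
  · rintro ⟨h1, hD⟩ i j a1 a2 a3 a4 a5
    by_cases hj : j ≤ s₁
    · exact hD i j a1 a2 a3 hj a5
    · push Not at hj
      have hi : sa T σ o i ∈ P₁ := hc1 i a1 (by omega)
      have hj2 : j ≤ t₁ := by
        by_contra hc
        push Not at hc
        exact hl.t1_last j hc a4 (by rw [← a5]; exact hi)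
      have hi2 := hl.s1_first i a1 (by omega)
      have hj3 : j ≠ t₁ := by
        rintro rfl
        exact hi2 a5
      have := non_cross T hK.planar hb (i := i) (j := s₁) (k := j) (l := t₁) (by omega) hj
        (by omega) (by have := hl.t1_le; omega) a5.symm hl.s1_eq.symm
      exact hi2 (by rw [← this, hl.s1_eq])

theorem Collar.disj_right [Finite D] (hK : Collar T T1 π σ σ1 o P₁ P₂)
    (hl : Landing T σ o P₁ P₂ t₁ s₁ t₂ s₂)
    (hc2 : ∀ j, s₂ ≤ j → j ≤ per T σ o → sa T σ o j ∈ P₂)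
    {n : ℕ} (hn : t₂ ≤ n) (_hnL : n < per T σ o) :
    T.Disj σ o n ↔ s₂ ≤ n ∧ DisjOn T σ o s₂ (per T σ o) n := by
  have hb := hK.mi.bi
  rw [disj_iff]
  constructor
  · intro hD
    have h1 : s₂ ≤ n := by
      by_contra hc
      push Not at hc
      exact hD t₂ s₂ hl.one_le_t2 hn hc hl.s2_le hl.s2_eq.symm
    refine ⟨h1, fun i j a1 a2 a3 a4 => hD i j ?_ a2 a3 a4⟩
    have := hl.one_le_t2; have := hl.t2_le
    omega
  · rintro ⟨h1, hD⟩ i j a1 a2 a3 a4 a5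
    by_cases hi : s₂ ≤ i
    · exact hD i j hi a2 a3 a4 a5
    · push Not at hi
      have hj : sa T σ o j ∈ P₂ := hc2 j (by omega) a4
      have hi2 : t₂ ≤ i := by
        by_contra hc
        push Not at hc
        exact hl.t2_first i a1 hc (by rw [a5]; exact hj)
      have hj2 := hl.s2_last j (by omega) a4
      have hi3 : i ≠ t₂ := by
        rintro rfl
        exact hj2 a5.symm
      have := non_cross T hK.planar hb (i := t₂) (j := i) (k := s₂) (l := j) (by omega) hi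
        (by omega) (by have := hl.t2_le; have := hl.one_le_t2; omega) hl.s2_eq a5.symm
      exact hj2 (by rw [← a5, this])

open Classical in
/-- The outer members of the class of `o` on the first explored side, up to the landing time. -/
noncomputable def sideSum {M : Type*} [AddCommMonoid M] (T : Tri V D) (σ : V → Bool) (o : D)
    (a b : ℕ) (Θ : D → M) : M :=
  ∑ n ∈ Finset.Ico a b,
    if T.Mi σ ((T.st σ)^[n] o) ∧ DisjOn T σ o a b n then Θ ((T.st σ)^[n] o) else 0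

open Classical in
/-- **Exact collar decomposition of the class of `o`.** -/
theorem Collar.class_sum [Fintype D] {M : Type*} [AddCommMonoid M]
    (hK : Collar T T1 π σ σ1 o P₁ P₂) (hl : Landing T σ o P₁ P₂ t₁ s₁ t₂ s₂)
    (hc1 : ∀ i, 1 ≤ i → i ≤ s₁ → sa T σ o i ∈ P₁)
    (hc2 : ∀ j, s₂ ≤ j → j ≤ per T σ o → sa T σ o j ∈ P₂) (Θ : D → M) :
    (∑ e, if T.Rel σ e o then Θ e else 0) =
      (∑ e, if T1.Rel σ1 e o then Θ e else 0) + sideSum T σ o 1 s₁ Θ +
        sideSum T σ o s₂ (per T σ o) Θ := by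
  have hb := hK.mi.bi
  have hper := hK.contr.per hK.agree hb
  have hm1 : T1.Mi σ1 o := (hK.contr.mi hK.agree hb 0).2 hK.mi
  have h12 := hK.t1_lt_t2 hl
  have k1 := hl.one_le_s1
  have k2 := hl.s1_le
  have k3 := hl.t2_le
  have k4 := hl.s2_le
  rw [cls_eq_sum T hK.mi Θ, cls_eq_sum T1 hm1 Θ, hper]
  have hside1 : sideSum T σ o 1 s₁ Θ = ∑ n ∈ Finset.range (per T σ o),
      if (1 ≤ n ∧ n < s₁) ∧ T.Mi σ ((T.st σ)^[n] o) ∧ DisjOn T σ o 1 s₁ n
        then Θ ((T.st σ)^[n] o) else 0 := by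
    unfold sideSum
    rw [← Finset.sum_filter, ← Finset.sum_filter]
    apply Finset.sum_congr _ (fun _ _ => rfl)
    ext n
    simp only [Finset.mem_filter, Finset.mem_Ico, Finset.mem_range]
    constructor
    · rintro ⟨h1, h2⟩; exact ⟨by omega, h1, h2⟩
    · rintro ⟨-, h1, h2⟩; exact ⟨h1, h2⟩
  have hside2 : sideSum T σ o s₂ (per T σ o) Θ = ∑ n ∈ Finset.range (per T σ o),
      if s₂ ≤ n ∧ T.Mi σ ((T.st σ)^[n] o) ∧ DisjOn T σ o s₂ (per T σ o) n
        then Θ ((T.st σ)^[n] o) else 0 := by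
    unfold sideSum
    rw [← Finset.sum_filter, ← Finset.sum_filter]
    apply Finset.sum_congr _ (fun _ _ => rfl)
    ext n
    simp only [Finset.mem_filter, Finset.mem_Ico, Finset.mem_range]
    constructor
    · rintro ⟨h1, h2⟩; exact ⟨by omega, by omega, h2⟩
    · rintro ⟨h0, h1, h2⟩; exact ⟨by omega, h2⟩
  rw [hside1, hside2, ← Finset.sum_add_distrib, ← Finset.sum_add_distrib]
  apply Finset.sum_congr rfl
  intro n hn
  rw [Finset.mem_range] at hn
  rw [hK.contr.iter hK.agree hb, hK.contr.mi hK.agree hb]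
  rcases Nat.eq_zero_or_pos n with h0 | h0
  · subst h0
    have e1 : T.Disj σ o 0 := by intro i j a1 a2; omega
    have e2 : T1.Disj σ1 o 0 := by intro i j a1 a2; omega
    have e3 : ¬ (1 ≤ 0 ∧ 0 < s₁) := by omega
    have e4 : ¬ (s₂ ≤ 0) := by omega
    simp [e1, e2, e4]
  rw [hK.disj1_iff hl h0 hn]
  rcases lt_or_ge n t₁ with h1 | h1
  · rw [hK.disj_left hl hc1 h0 h1]
    have e1 : ¬ (t₁ ≤ n) := by omega
    have e2 : ¬ (s₂ ≤ n) := by omega
    by_cases h2 : n < s₁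
    · simp [e1, e2, h2, Nat.one_le_iff_ne_zero.2 (by omega : n ≠ 0)]
    · simp [e1, e2, h2]
  · have e0 : ¬ (n < s₁) := by omega
    rcases lt_or_ge n t₂ with h2 | h2
    · have e2 : ¬ (s₂ ≤ n) := by omega
      simp [e0, h1, h2, e2]
    · rw [hK.disj_right hl hc2 h2 hn]
      have e1 : ¬ (n < t₂) := by omega
      simp only [e0, e1, false_and, and_false, if_false, add_zero, zero_add]
      by_cases h3 : s₂ ≤ n <;> simp [h3]

end main

end Vale.Agent.P148.R2.H871
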