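import Vale.Agent.P148.R2.H871.CW1
import Vale.Agent.P148.R2.H678.CombDef

/-!
# P148, row CW, part 4: the outer world

`hub (nbr X) Out C` (helper678) with `Out` the far vertices and `C` the white vertices is the set
explored from outside. It is a stopping set; the fresh region is the component of its complement
which contains the centre; every frozen neighbour of a free vertex is black.
-/

open Set Metric Topology Filter Relation

namespace Vale.Agent.P148.R2.H871

open H592 H995 H678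

section graph

variable {α : Type*} {r : α → α → Prop} {S C : Set α}

theorem core_seed {v : α} (hv : v ∈ S) : v ∈ core r S C := ⟨v, hv, ReflTransGen.refl⟩

theorem core_step {u v : α} (hu : u ∈ core r S C) (h : r u v) (hv : v ∈ C) : v ∈ core r S C := by
  obtain ⟨s, hs, hsu⟩ := hu
  exact ⟨s, hs, hsu.tail ⟨h, hv⟩⟩

theorem core_sub_hub : core r S C ⊆ hub r S C := fun _ h => Or.inl h

theorem hub_step {u v : α} (hu : u ∈ core r S C) (h : r u v) : v ∈ hub r S C := Or.inr ⟨u, hu, h⟩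

theorem core_sub : core r S C ⊆ S ∪ C := by
  rintro v ⟨s, hs, hsv⟩
  rcases hsv.cases_tail with h | ⟨c, -, hc⟩
  · rw [h]; exact Or.inl hs
  · exact Or.inr hc.2

theorem mem_core_of_hub {v : α} (hv : v ∈ hub r S C) (h : v ∈ C ∨ v ∈ S) : v ∈ core r S C := by
  rcases h with h | h
  · rcases hv with hv | ⟨u, hu, huv⟩
    · exact hv
    · exact core_step hu huv h
  · exact core_seed h

theorem rim_not {v : α} (hv : v ∈ rim r S C) : v ∉ C ∧ v ∉ S :=
  ⟨fun h => hv.2 (mem_core_of_hub hv.1 (Or.inl h)), fun h => hv.2 (core_seed h)⟩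

theorem rim_nbr {v : α} (hv : v ∈ rim r S C) : ∃ u ∈ core r S C, r u v := by
  rcases hv.1 with h | h
  · exact absurd h hv.2
  · exact h

/-- Induction along the core. -/
theorem core_induction {P : α → Prop} (h0 : ∀ s ∈ S, P s)
    (h1 : ∀ u v, u ∈ core r S C → P u → r u v → v ∈ C → P v) : ∀ v ∈ core r S C, P v := by
  rintro v ⟨s, hs, hsv⟩
  have key : v ∈ core r S C ∧ P v := by
    induction hsv with
    | refl => exact ⟨core_seed hs, h0 s hs⟩
    | tail _ hbc ih => exact ⟨core_step ih.1 hbc.1 hbc.2, h1 _ _ ih.1 ih.2 hbc.1 hbc.2⟩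
  exact key.2

/-- **Stopping property**: the core only depends on the colours of the explored set off the
seeds. -/
theorem core_congr {C' : Set α} (h : ∀ v ∈ hub r S C, v ∉ S → (v ∈ C ↔ v ∈ C')) :
    core r S C' = core r S C := by
  apply Set.Subset.antisymm
  · intro v hv
    refine core_induction (P := fun v => v ∈ core r S C) (fun s hs => core_seed hs) ?_ v hv
    intro u w _ hu huw hw
    by_cases hS : w ∈ S
    · exact core_seed hS
    · exact core_step hu huw ((h w (hub_step hu huw) hS).2 hw)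
  · intro v hv
    refine core_induction (P := fun v => v ∈ core r S C') (fun s hs => core_seed hs) ?_ v hv
    intro u w hu0 hu huw hw
    by_cases hS : w ∈ S
    · exact core_seed hS
    · exact core_step hu huw ((h w (hub_step hu0 huw) hS).1 hw)

theorem hub_congr {C' : Set α} (h : ∀ v ∈ hub r S C, v ∉ S → (v ∈ C ↔ v ∈ C')) :
    hub r S C' = hub r S C := by
  unfold hub
  rw [core_congr h]

theorem rim_congr {C' : Set α} (h : ∀ v ∈ hub r S C, v ∉ S → (v ∈ C ↔ v ∈ C')) :
    rim r S C' = rim r S C := by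
  unfold rim
  rw [hub_congr h, core_congr h]

theorem mem_mix {E W₁ W₂ : Set α} {v : α} (hv : v ∈ E) : v ∈ mix E W₁ W₂ ↔ v ∈ W₁ := by
  unfold mix
  constructor
  · rintro (h | h)
    · exact h.1
    · exact absurd hv h.2
  · exact fun h => Or.inl ⟨h, hv⟩

theorem mem_mix' {E W₁ W₂ : Set α} {v : α} (hv : v ∉ E) : v ∈ mix E W₁ W₂ ↔ v ∈ W₂ := by
  unfold mix
  constructor
  · rintro (h | h)
    · exact absurd h.2 hv
    · exact h.1
  · exact fun h => Or.inr ⟨h, hv⟩

/-- Refreshing the colours off the explored set does not change it. -/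
theorem hub_mix (C₃ : Set α) : hub r S (mix (hub r S C \ S) C C₃) = hub r S C :=
  hub_congr fun v hv hS => (mem_mix (v := v) (E := hub r S C \ S) ⟨hv, hS⟩).symm

theorem core_mono {r' : α → α → Prop} {S' C' : Set α} (hr : ∀ a b, r a b → r' a b) (hS : S ⊆ S')
    (hC : C ⊆ C') : core r S C ⊆ core r' S' C' := by
  intro v hv
  exact core_induction (P := fun v => v ∈ core r' S' C') (fun s hs => core_seed (hS hs))
    (fun u w _ hu huw hw => core_step hu (hr _ _ huw) (hC hw)) v hv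

theorem hub_mono {r' : α → α → Prop} {S' C' : Set α} (hr : ∀ a b, r a b → r' a b) (hS : S ⊆ S')
    (hC : C ⊆ C') : hub r S C ⊆ hub r' S' C' := by
  rintro v (hv | ⟨u, hu, huv⟩)
  · exact Or.inl (core_mono hr hS hC hv)
  · exact Or.inr ⟨u, core_mono hr hS hC hu, hr _ _ huv⟩

/-- The relation which never enters `K`. -/
def offR (r : α → α → Prop) (K : Set α) : α → α → Prop := fun a b => r a b ∧ b ∉ K

theorem hub_off_sub {K : Set α} : hub (offR r K) S C ⊆ hub r S C :=
  hub_mono (fun _ _ h => h.1) subset_rfl subset_rfl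

theorem hub_off_disj {K : Set α} (hS : Disjoint S K) {v : α} (hv : v ∈ hub (offR r K) S C) :
    v ∉ K := by
  rcases hv with ⟨s, hs, hsv⟩ | ⟨u, -, huv⟩
  · rcases hsv.cases_tail with h | ⟨c, -, hc⟩
    · rw [h]; exact Set.disjoint_left.1 hS hs
    · exact hc.1.2
  · exact huv.2

end graph

section world

variable {X Out C : Set ℂ} {i₀ : ℂ}

theorem core_subset (hO : Out ⊆ X) : core (nbr X) Out C ⊆ X :=
  fun v hv => core_induction (P := fun v => v ∈ X) (fun _ hs => hO hs)
    (fun _ _ _ _ huw _ => huw.2.1) v hv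

theorem hub_subset (hO : Out ⊆ X) : hub (nbr X) Out C ⊆ X := by
  rintro v (hv | ⟨u, -, huv⟩)
  · exact core_subset hO hv
  · exact huv.2.1

/-- The core from a connected seed is connected. -/
theorem connIn_core {K : Set ℂ} (hO : ConnIn X Out) :
    ConnIn X (core (offR (nbr X) K) Out C) := by
  have hsub : core (offR (nbr X) K) Out C ⊆ X := fun v hv =>
    core_induction (P := fun v => v ∈ X) (fun _ hs => hO.1 hs)
      (fun _ _ _ _ huw _ => huw.1.2.1) v hv
  have key : ∀ s ∈ Out, ∀ v ∈ core (offR (nbr X) K) Out C,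
      ReflTransGen (fun a b => nbr X a b ∧ a ∈ core (offR (nbr X) K) Out C ∧
        b ∈ core (offR (nbr X) K) Out C) s v := by
    intro s hs v hv
    refine core_induction (P := fun v => ReflTransGen (fun a b => nbr X a b ∧
      a ∈ core (offR (nbr X) K) Out C ∧ b ∈ core (offR (nbr X) K) Out C) s v) ?_ ?_ v hv
    · intro t ht
      exact hO.lift (fun x hx => core_seed hx) hs ht
    · intro u w hu ih huw hw
      exact ih.tail ⟨huw.1, hu, core_step hu huw hw⟩
  refine ⟨hsub, fun x hx y hy => ?_⟩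
  obtain ⟨s, hs, -⟩ := id hx
  exact (symm_in (key s hs x hx)).trans (key s hs y hy)

theorem connIn_att {O N : Set ℂ} (h : ConnIn X O) (hN : ∀ v ∈ N, ∃ u ∈ O, nbr X u v) :
    ConnIn X (O ∪ N) := by
  have key : ∀ x ∈ O ∪ N, ∃ u ∈ O,
      ReflTransGen (fun a b => nbr X a b ∧ a ∈ O ∪ N ∧ b ∈ O ∪ N) u x := by
    rintro x (hx | hx)
    · exact ⟨x, hx, ReflTransGen.refl⟩
    · obtain ⟨u, hu, hux⟩ := hN x hx
      exact ⟨u, hu, ReflTransGen.single ⟨hux, Or.inl hu, Or.inr hx⟩⟩
  refine ⟨?_, fun x hx y hy => ?_⟩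
  · rintro x (hx | hx)
    · exact h.1 hx
    · obtain ⟨u, -, hux⟩ := hN x hx
      exact hux.2.1
  · obtain ⟨u, hu, hux⟩ := key x hx
    obtain ⟨w, hw, hwy⟩ := key y hy
    exact ((symm_in hux).trans (h.lift subset_union_left hu hw)).trans hwy

theorem connIn_hub {K : Set ℂ} (hO : ConnIn X Out) :
    ConnIn X (hub (offR (nbr X) K) Out C) := by
  have h := connIn_att (connIn_core (C := C) (K := K) hO)
    (N := {v | ∃ u ∈ core (offR (nbr X) K) Out C, offR (nbr X) K u v})
    (fun v hv => by obtain ⟨u, hu, huv⟩ := hv; exact ⟨u, hu, huv.1⟩)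
  exact h

theorem offR_empty : offR (nbr X) (∅ : Set ℂ) = nbr X := by
  funext a b
  unfold offR
  simp

/-- The fresh region: the component of the centre off the set explored from outside. -/
def fresh (X Out C : Set ℂ) (i₀ : ℂ) : Set ℂ := comp X (X \ hub (nbr X) Out C) i₀

theorem fresh_subset : fresh X Out C i₀ ⊆ X := fun _ h => (comp_subset _ _ _ h).1

theorem not_hub_of_fresh {v : ℂ} (hv : v ∈ fresh X Out C i₀) : v ∉ hub (nbr X) Out C :=
  (comp_subset _ _ _ hv).2

theorem connIn_fresh : ConnIn X (fresh X Out C i₀) := connIn_comp sdiff_subset _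

/-- The frozen set is connected. -/
theorem connIn_frozen (hX : X.Finite) (hO : ConnIn X Out) (hne : Out.Nonempty) :
    ConnIn X (X \ fresh X Out C i₀) := by
  have h := connIn_hub (C := C) (K := ∅) hO
  rw [offR_empty] at h
  exact connIn_compl_comp hX h (hne.mono fun x hx => Or.inl (core_seed hx)) i₀

theorem frozen_nonempty (hO : Out ⊆ X) (hne : Out.Nonempty) :
    (X \ fresh X Out C i₀).Nonempty := by
  obtain ⟨x, hx⟩ := hne
  exact ⟨x, hO hx, fun h => not_hub_of_fresh h (Or.inl (core_seed hx))⟩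

/-- **The frozen neighbours of free vertices are on the rim**, in particular not white and not
in `Out`. -/
theorem fresh_nbr {u v : ℂ} (hu : u ∈ fresh X Out C i₀) (huv : nbr X u v) :
    v ∈ fresh X Out C i₀ ∨ v ∈ rim (nbr X) Out C := by
  rcases nbr_comp hu huv with h | h
  · exact Or.inl h
  · refine Or.inr ⟨h, fun hc => ?_⟩
    exact not_hub_of_fresh hu (hub_step hc ⟨huv.2.1, huv.1, huv.2.2.1.symm, by
      rw [inter_comm]; exact huv.2.2.2⟩)

theorem fresh_congr {C' : Set ℂ} (h : ∀ v ∈ hub (nbr X) Out C, v ∉ Out → (v ∈ C ↔ v ∈ C')) :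
    fresh X Out C' i₀ = fresh X Out C i₀ := by
  unfold fresh
  rw [hub_congr h]

/-- Recolouring free vertices does not change the world. -/
theorem fresh_congr_free {C' : Set ℂ} (h : ∀ v ∈ X, v ∉ fresh X Out C i₀ → (v ∈ C ↔ v ∈ C'))
    (hO : Out ⊆ X) : fresh X Out C' i₀ = fresh X Out C i₀ :=
  fresh_congr fun v hv _ => h v (hub_subset hO hv) fun hf => not_hub_of_fresh hf hv

/-- A vertex joined to the centre off the explored set is fresh. -/
theorem subset_fresh {A : Set ℂ} (hA : ConnIn X A) (hd : ∀ x ∈ A, x ∉ hub (nbr X) Out C)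
    (hi : i₀ ∈ A) : A ⊆ fresh X Out C i₀ := by
  intro y hy
  have h1 : A ⊆ X \ hub (nbr X) Out C := fun x hx => ⟨hA.1 hx, hd x hx⟩
  exact hA.subset_comp h1 hi (mem_comp_self (h1 hi)) hy

/-! ### a circuit off the core -/

variable {Cy : Set ℂ}

/-- Paths off `Cy`. -/
def offP (X Cy : Set ℂ) (a b : ℂ) : Prop := nbr X a b ∧ a ∉ Cy ∧ b ∉ Cy

theorem nbr_symm' {u v : ℂ} (h : nbr X u v) : nbr X v u :=
  ⟨h.2.1, h.1, h.2.2.1.symm, by rw [inter_comm]; exact h.2.2.2⟩

theorem offP_symm {u v : ℂ} (h : ReflTransGen (offP X Cy) u v) :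
    ReflTransGen (offP X Cy) v u := by
  induction h with
  | refl => exact ReflTransGen.refl
  | tail _ hbc ih => exact ReflTransGen.head ⟨nbr_symm' hbc.1, hbc.2.2, hbc.2.1⟩ ih

/-- Vertices of the core are joined to the outside off the circuit. -/
theorem core_path (hCy : ∀ v ∈ Cy, v ∉ core (nbr X) Out C) {v : ℂ}
    (hv : v ∈ core (nbr X) Out C) : ∃ z ∈ Out, ReflTransGen (offP X Cy) v z := by
  refine core_induction (P := fun v => ∃ z ∈ Out, ReflTransGen (offP X Cy) v z) ?_ ?_ v hv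
  · intro s hs
    exact ⟨s, hs, ReflTransGen.refl⟩
  · rintro u w hu ⟨z, hz, huz⟩ huw hw
    exact ⟨z, hz, ReflTransGen.head ⟨nbr_symm' huw, fun h => hCy _ h (core_step hu huw hw),
      fun h => hCy _ h hu⟩ huz⟩

/-- `Cy` separates the centre from the outside. -/
def Sep (X Cy Out : Set ℂ) (i₀ : ℂ) : Prop := ∀ z ∈ Out, ¬ ReflTransGen (offP X Cy) i₀ z

/-- Vertices joined to the centre off the circuit are not explored. -/
theorem Sep.not_hub (hs : Sep X Cy Out i₀) (hCy : ∀ v ∈ Cy, v ∉ core (nbr X) Out C) {v : ℂ}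
    (hv : ReflTransGen (offP X Cy) i₀ v) (hv' : v ∉ Cy) : v ∉ hub (nbr X) Out C := by
  rintro (h | ⟨u, hu, huv⟩)
  · obtain ⟨z, hz, hvz⟩ := core_path hCy h
    exact hs z hz (hv.trans hvz)
  · obtain ⟨z, hz, huz⟩ := core_path hCy hu
    exact hs z hz ((hv.tail ⟨nbr_symm' huv, hv', fun h => hCy _ h hu⟩).trans huz)

theorem fresh_path (hCy' : ∀ v ∈ Cy, v ∈ hub (nbr X) Out C) {u : ℂ}
    (hu : u ∈ fresh X Out C i₀) : ReflTransGen (offP X Cy) i₀ u :=
  ReflTransGen.mono (fun a b (hab : nbr X a b ∧ a ∈ X \ hub (nbr X) Out C ∧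
    b ∈ X \ hub (nbr X) Out C) => ⟨hab.1, fun h' => hab.2.1.2 (hCy' _ h'),
      fun h' => hab.2.2.2 (hCy' _ h')⟩) _ _ hu.2

/-- **The ring property**: the frozen neighbours of free vertices are on the circuit. -/
theorem Sep.ring (hs : Sep X Cy Out i₀) (hCy : ∀ v ∈ Cy, v ∉ core (nbr X) Out C)
    (hCy' : ∀ v ∈ Cy, v ∈ hub (nbr X) Out C) {u v : ℂ} (hu : u ∈ fresh X Out C i₀)
    (huv : nbr X u v) : v ∈ fresh X Out C i₀ ∨ v ∈ Cy := by
  rcases fresh_nbr hu huv with h | h
  · exact Or.inl h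
  · right
    by_contra hcon
    exact hs.not_hub hCy ((fresh_path hCy' hu).tail
      ⟨huv, fun h' => not_hub_of_fresh hu (hCy' _ h'), hcon⟩) hcon h.1

/-- The fresh region is the set of all vertices which are joined to the centre off the circuit. -/
theorem Sep.fresh_eq (hs : Sep X Cy Out i₀) (hCy : ∀ v ∈ Cy, v ∉ core (nbr X) Out C)
    (hCy' : ∀ v ∈ Cy, v ∈ hub (nbr X) Out C) (hi : i₀ ∈ X) (hi' : i₀ ∉ Cy) :
    fresh X Out C i₀ = comp X (X \ Cy) i₀ := by
  apply Set.Subset.antisymm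
  · intro u hu
    refine ⟨⟨fresh_subset hu, fun h => not_hub_of_fresh hu (hCy' _ h)⟩, ?_⟩
    exact ReflTransGen.mono (fun a b (hab : nbr X a b ∧ a ∈ X \ hub (nbr X) Out C ∧
      b ∈ X \ hub (nbr X) Out C) => ⟨hab.1, ⟨hab.2.1.1, fun h' => hab.2.1.2 (hCy' _ h')⟩,
        ⟨hab.2.2.1, fun h' => hab.2.2.2 (hCy' _ h')⟩⟩) _ _ hu.2
  · rintro u ⟨hu, hu'⟩
    have key : ReflTransGen (offP X Cy) i₀ u ∧ u ∈ fresh X Out C i₀ := by
      clear hu
      induction hu' with
      | refl => exact ⟨ReflTransGen.refl, mem_comp_self ⟨hi, hs.not_hub hCy ReflTransGen.refl hi'⟩⟩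
      | tail _ hbc ih =>
        have h1 := ih.1.tail ⟨hbc.1, hbc.2.1.2, hbc.2.2.2⟩
        refine ⟨h1, comp_closed ih.2 hbc.1 ⟨hbc.2.2.1, hs.not_hub hCy h1 hbc.2.2.2⟩⟩
    exact key.2

/-- All vertices of a connected set off the circuit are fresh. -/
theorem Sep.subset (hs : Sep X Cy Out i₀) (hCy : ∀ v ∈ Cy, v ∉ core (nbr X) Out C) {A : Set ℂ}
    (hA : ConnIn X A) (hAr : ∀ x ∈ A, x ∉ Cy) (hi : i₀ ∈ A) : A ⊆ fresh X Out C i₀ := by
  refine subset_fresh hA (fun x hx => hs.not_hub hCy ?_ (hAr x hx)) hi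
  exact ReflTransGen.mono (fun a b (hab : nbr X a b ∧ a ∈ A ∧ b ∈ A) =>
    ⟨hab.1, hAr a hab.2.1, hAr b hab.2.2⟩) _ _ (hA.2 i₀ hi x hx)

/-- Four paths around give the separation. -/
theorem Around.sep {p : ℂ} {ρ R : ℝ} (hX : Three X) (hrR : ρ < R) (hR : 0 < R)
    (hB : Around X p ρ R Cy) (hO : ∀ z ∈ Out, R ≤ nin (z - p)) (hi : nin (i₀ - p) ≤ ρ)
    (hi' : i₀ ∉ Cy) : Sep X Cy Out i₀ := fun z hz h =>
  hB.no_path hX hrR hR h hi' hi (hO z hz)

end world

end Vale.Agent.P148.R2.H871
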