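import Vale.Agent.P148.R2.H959.Reg
import Vale.Agent.P148.R2.H995.CombGeo2
import Vale.Agent.P148.R2.H995.Ring
import Vale.Agent.P148.R2.H959.Far

/-!
# P148, row CW, part 6: the inner and the outer ring of the comb separate

A closed chain of paths along the inner hubs and the lower rails is met by every path from
`nsup ≤ 1 + a / 8` to `1 + a / 2 ≤ nsup`; the same for the outer hubs and the upper rails, from the
octagon `Oct` (which contains the inner hubs of the straight gates) to `1 + 5 a / 8 ≤ nsup`.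
-/

open Set Metric Complex
open scoped ComplexConjugate

namespace Vale.Agent.P148.R2.H871

open Vale.Agent.P148.R2.N Vale.Agent.P148.R2.H678
open Vale.Agent.P148.R2.H592 (nbr Three)
open Vale.Agent.P148.R2.H995 (nsup Pieces hp hbox_rot cbox_rot mem_hbox rail_local wd_path
  wd_seg wd_pieces wd_zero ang ang_pos wd convex_nsup_lt convex_nsup_le isOpen_nsup_lt gbox_pos)
open Vale.Agent.P148.R2.H959 (reg convex_reg isOpen_reg reg_nsup gbox_subset_reg
  gbox_succ_subset_reg)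

variable {M k : ℕ}

/-! ### the level functions of the sections -/

/-- The direction of the section `k`. -/
noncomputable def uk (M k : ℕ) : ℂ :=
  if k % (2 * M + 1) = 2 * M then conj (I ^ (k / (2 * M + 1))) * (1 - I)
  else conj (I ^ (k / (2 * M + 1)))

/-- The level of the section `k`. -/
noncomputable def lf (M k : ℕ) (z : ℂ) : ℝ :=
  (uk M k * z).re - if k % (2 * M + 1) = 2 * M then 1 else 0

theorem conj_I_pow_mul (s : ℕ) (w : ℂ) : conj (I ^ s) * (I ^ s * w) = w := by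
  rw [← mul_assoc, ← Complex.normSq_eq_conj_mul_self, Complex.normSq_eq_norm_sq, norm_pow, norm_I,
    one_pow]
  simp

theorem lf_straight (h : k % (2 * M + 1) ≠ 2 * M) (w : ℂ) :
    lf M k (I ^ (k / (2 * M + 1)) * w) = w.re := by
  unfold lf uk
  rw [if_neg h, if_neg h, conj_I_pow_mul, sub_zero]

theorem lf_diag (h : k % (2 * M + 1) = 2 * M) (w : ℂ) :
    lf M k (I ^ (k / (2 * M + 1)) * w) = w.re + w.im - 1 := by
  unfold lf uk
  rw [if_pos h, if_pos h]
  have e : conj (I ^ (k / (2 * M + 1))) * (1 - I) * (I ^ (k / (2 * M + 1)) * w) =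
      (1 - I) * (conj (I ^ (k / (2 * M + 1))) * (I ^ (k / (2 * M + 1)) * w)) := by ring
  rw [e, conj_I_pow_mul]
  simp [mul_re]

theorem lf_lin (u : ℂ) : IsLinearMap ℝ fun z : ℂ => (u * z).re where
  map_add x y := by simp [mul_add]
  map_smul c x := by
    simp only [real_smul, smul_eq_mul, mul_re, mul_im, ofReal_re, ofReal_im]
    ring

theorem convex_lf_gt (M k : ℕ) (c : ℝ) : Convex ℝ {z | c < lf M k z} := by
  have h := convex_halfSpace_gt (lf_lin (uk M k))
    (c + if k % (2 * M + 1) = 2 * M then 1 else 0)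
  have e : {z | c < lf M k z} =
      {z | (c + if k % (2 * M + 1) = 2 * M then 1 else 0) < (uk M k * z).re} := by
    ext z
    unfold lf
    simp only [mem_ofPred_eq]
    constructor <;> intro h <;> linarith
  rw [e]
  exact h

theorem convex_lf_ge (M k : ℕ) (c : ℝ) : Convex ℝ {z | c ≤ lf M k z} := by
  have h := convex_halfSpace_ge (lf_lin (uk M k))
    (c + if k % (2 * M + 1) = 2 * M then 1 else 0)
  have e : {z | c ≤ lf M k z} =
      {z | (c + if k % (2 * M + 1) = 2 * M then 1 else 0) ≤ (uk M k * z).re} := by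
    ext z
    unfold lf
    simp only [mem_ofPred_eq]
    constructor <;> intro h <;> linarith
  rw [e]
  exact h

theorem convex_lf_lt (M k : ℕ) (c : ℝ) : Convex ℝ {z | lf M k z < c} := by
  have h := convex_halfSpace_lt (lf_lin (uk M k))
    (c + if k % (2 * M + 1) = 2 * M then 1 else 0)
  have e : {z | lf M k z < c} =
      {z | (uk M k * z).re < (c + if k % (2 * M + 1) = 2 * M then 1 else 0)} := by
    ext z
    unfold lf
    simp only [mem_ofPred_eq]
    constructor <;> intro h <;> linarith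
  rw [e]
  exact h

theorem isOpen_lf_gt (M k : ℕ) (c : ℝ) : IsOpen {z | c < lf M k z} := by
  unfold lf
  exact isOpen_lt continuous_const (by fun_prop)

/-- High level gives large norm. -/
theorem nsup_of_lf {c : ℝ} (hc : 0 ≤ c) {z : ℂ} (h : 1 + 2 * c < lf M k z) : 1 + c < nsup z := by
  obtain ⟨w, rfl⟩ := exists_eq_I_pow_mul (k / (2 * M + 1)) z
  rw [H959.nsup_I_pow_mul]
  by_cases hk : k % (2 * M + 1) = 2 * M
  · rw [lf_diag hk] at h
    have h1 : w.re ≤ nsup w := (le_abs_self _).trans (le_max_left _ _)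
    have h2 : w.im ≤ nsup w := (le_abs_self _).trans (le_max_right _ _)
    linarith
  · rw [lf_straight hk] at h
    have h1 : w.re ≤ nsup w := (le_abs_self _).trans (le_max_left _ _)
    linarith

/-! ### the location of the pieces -/

/-- The two hubs of the section `k` and the rail between them. -/
def Loc (M : ℕ) (c : ℝ) (k : ℕ) : Set ℂ :=
  hbox M (hp M k c) ∪ CBox M (hp M k c) (hp M (k + 1) c) ∪ hbox M (hp M (k + 1) c)

theorem loc_lf (hM : 0 < M) {c : ℝ} (hc : 7 / 16 ≤ c) (hc' : c ≤ 9 / 16) {z : ℂ}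
    (hz : z ∈ Loc M c k) : 1 + c * ms M - ms M / 16 ≤ lf M k z := by
  obtain ⟨h0, h1, -, -⟩ := H995.num hM
  have h4 := H995.sd_pos hM
  have hMa := mod_mul_eq hM
  obtain ⟨w, rfl⟩ := exists_eq_I_pow_mul (k / (2 * M + 1)) z
  rcases hz with (hz | hz) | hz
  · have h2 := (hbox_rot _).1 hz
    rw [mem_hbox] at h2
    simp only [H995.lp] at h2
    obtain ⟨h2, h3⟩ := h2
    rw [abs_le] at h2 h3
    by_cases hk : k % (2 * M + 1) = 2 * M
    · rw [lf_diag hk]
      rw [hk, hMa] at h3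
      linarith
    · rw [lf_straight hk]
      linarith
  · rcases rail_local hM (by linarith) (by linarith) hz with ⟨hk, ⟨a1, a2⟩, a3, a4⟩ |
      ⟨hk, ⟨a1, a2⟩, ⟨a3, a4⟩, a5, a6⟩
    · rw [lf_straight hk]
      linarith
    · rw [lf_diag hk]
      linarith
  · by_cases hk : k % (2 * M + 1) = 2 * M
    · rw [H995.hp_succ_of_eq hM hk] at hz
      have h2 := (hbox_rot _).1 hz
      rw [mem_hbox] at h2
      simp only [H995.lq] at h2
      obtain ⟨h2, h3⟩ := h2
      rw [abs_le] at h2 h3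
      rw [lf_diag hk]
      linarith
    · rw [H995.hp_succ_of_ne hk] at hz
      have h2 := (hbox_rot _).1 hz
      rw [mem_hbox] at h2
      simp only [H995.lp] at h2
      obtain ⟨h2, h3⟩ := h2
      rw [abs_le] at h2 h3
      rw [lf_straight hk]
      linarith

theorem hbox_nsup (hM : 0 < M) {c : ℝ} (hc : 7 / 16 ≤ c) {z : ℂ}
    (hz : z ∈ hbox M (hp M k c)) : nsup z ≤ 1 + c * ms M + ms M / 32 := by
  have h0 := ms_pos hM
  obtain ⟨w, rfl⟩ := exists_eq_I_pow_mul (k / (2 * M + 1)) z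
  have h2 := (hbox_rot _).1 hz
  rw [mem_hbox] at h2
  simp only [H995.lp] at h2
  obtain ⟨h2, h3⟩ := h2
  rw [abs_le] at h2 h3
  have m2 := mod_mul_le hM k
  have m4 : (0 : ℝ) ≤ ((k % (2 * M + 1) : ℕ) : ℝ) * ms M := by positivity
  rw [H959.nsup_I_pow_mul]
  refine max_le (abs_le.2 ⟨by nlinarith, by nlinarith⟩) (abs_le.2 ⟨by nlinarith, by nlinarith⟩)

theorem hbox_nsup_ge {c : ℝ} {z : ℂ}
    (hz : z ∈ hbox M (hp M k c)) : 1 + c * ms M - ms M / 32 ≤ nsup z := by
  obtain ⟨w, rfl⟩ := exists_eq_I_pow_mul (k / (2 * M + 1)) z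
  have h2 := (hbox_rot _).1 hz
  rw [mem_hbox] at h2
  simp only [H995.lp] at h2
  obtain ⟨h2, -⟩ := h2
  rw [abs_le] at h2
  rw [H959.nsup_I_pow_mul]
  have h1 : w.re ≤ nsup w := (le_abs_self _).trans (le_max_left _ _)
  linarith

theorem loc_in_nsup (hM : 0 < M) {z : ℂ} (hz : z ∈ Loc M (7 / 16) k) :
    nsup z < 1 + ms M / 2 := by
  obtain ⟨h0, h1, -, -⟩ := H995.num hM
  have h4 := H995.sd_pos hM
  rcases hz with (hz | hz) | hz
  · have := hbox_nsup hM le_rfl hz
    linarith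
  · obtain ⟨w, rfl⟩ := exists_eq_I_pow_mul (k / (2 * M + 1)) z
    have m4 : (0 : ℝ) ≤ ((k % (2 * M + 1) : ℕ) : ℝ) * ms M := by positivity
    rw [H959.nsup_I_pow_mul]
    rcases rail_local hM (by norm_num) (by norm_num) hz with ⟨hk, ⟨a1, a2⟩, a3, a4⟩ |
      ⟨hk, ⟨a1, a2⟩, ⟨a3, a4⟩, a5, a6⟩
    · have hMa := mod_mul_le hM k
      have hle := mod_le M k
      have hlt : k % (2 * M + 1) + 1 ≤ 2 * M := by omega
      have b1 : (((k % (2 * M + 1) : ℕ) : ℝ) + 1) * ms M ≤ 2 := by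
        rw [← mod_mul_eq hM]
        apply mul_le_mul_of_nonneg_right _ h0.le
        exact_mod_cast hlt
      refine max_lt (abs_lt.2 ⟨by linarith, by linarith⟩) (abs_lt.2 ⟨by linarith, by linarith⟩)
    · refine max_lt (abs_lt.2 ⟨by linarith, by linarith⟩) (abs_lt.2 ⟨by linarith, by linarith⟩)
  · have := hbox_nsup hM le_rfl hz
    linarith

theorem loc_pin (k : ℕ) : Loc M (7 / 16) k =
    hbox M (pin M k) ∪ CBox M (pin M k) (pin M (k + 1)) ∪ hbox M (pin M (k + 1)) := by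
  unfold Loc
  rw [H995.pin_eq, H995.pin_eq]

theorem loc_pout (k : ℕ) : Loc M (9 / 16) k =
    hbox M (pout M k) ∪ CBox M (pout M k) (pout M (k + 1)) ∪ hbox M (pout M (k + 1)) := by
  unfold Loc
  rw [H995.pout_eq, H995.pout_eq]

theorem cbox_in_reg (hM : 0 < M) (k : ℕ) : CBox M (pin M k) (pin M (k + 1)) ⊆ reg M k := by
  have h0 := ms_pos hM
  refine H959.cbox_subset_reg hM (H959.pin_eq M k) (H959.pin_eq M (k + 1)) ?_ ?_ ?_
  · rw [norm_neg]; exact (H959.norm_off hM k).le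
  · rw [norm_neg]; exact (H959.norm_off hM (k + 1)).le
  · have := (H995.norm_railin hM k).1
    unfold sd
    linarith

theorem cbox_out_reg (hM : 0 < M) (k : ℕ) : CBox M (pout M k) (pout M (k + 1)) ⊆ reg M k := by
  have h0 := ms_pos hM
  refine H959.cbox_subset_reg hM (H959.pout_eq M k) (H959.pout_eq M (k + 1)) ?_ ?_ ?_
  · exact (H959.norm_off hM k).le
  · exact (H959.norm_off hM (k + 1)).le
  · have := (H995.norm_railout hM k).1
    unfold sd
    linarith

theorem loc_in_reg (hM : 0 < M) (k : ℕ) : Loc M (7 / 16) k ⊆ reg M k := by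
  rw [loc_pin]
  refine union_subset (union_subset ?_ (cbox_in_reg hM k)) ?_
  · exact (H995.hbox_pin_sub hM k).trans (gbox_subset_reg M k)
  · exact (H995.hbox_pin_sub hM (k + 1)).trans (gbox_succ_subset_reg hM k)

theorem loc_out_reg (hM : 0 < M) (k : ℕ) : Loc M (9 / 16) k ⊆ reg M k := by
  rw [loc_pout]
  refine union_subset (union_subset ?_ (cbox_out_reg hM k)) ?_
  · exact (H995.hbox_pout_sub hM k).trans (gbox_subset_reg M k)
  · exact (H995.hbox_pout_sub hM (k + 1)).trans (gbox_succ_subset_reg hM k)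

/-! ### the octagon -/

/-- The octagon: below all the levels `1 + a / 2`. -/
def Oct (M : ℕ) : Set ℂ := {z | ∀ k, lf M k z < 1 + ms M / 2}

theorem convex_oct (M : ℕ) : Convex ℝ (Oct M) := by
  have : Oct M = ⋂ k, {z | lf M k z < 1 + ms M / 2} := by
    ext z
    simp [Oct]
  rw [this]
  exact convex_iInter fun k => convex_lf_lt M k _

theorem oct_of_nsup (hM : 0 < M) {z : ℂ} (hz : nsup z ≤ 1 + ms M / 8) : z ∈ Oct M := by
  intro k
  have h0 := ms_pos hM
  by_contra hcon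
  push Not at hcon
  have := nsup_of_lf (M := M) (k := k) (c := ms M / 8) (z := z) (by positivity) (by linarith)
  linarith

theorem zero_mem_oct (hM : 0 < M) : (0 : ℂ) ∈ Oct M := by
  have h0 := ms_pos hM
  refine oct_of_nsup hM ?_
  simp only [nsup, zero_re, zero_im, abs_zero, max_self]
  linarith

theorem abs_I_pow (s : ℕ) (w : ℂ) :
    |(I ^ s * w).re| + |(I ^ s * w).im| = |w.re| + |w.im| := by
  induction s with
  | zero => simp
  | succ s ih =>
    rw [pow_succ', mul_assoc, ← ih, I_mul_re, I_mul_im, abs_neg, add_comm]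

/-- The inner hub of the gate `1` is in the octagon. -/
theorem hbox_oct (hM : 0 < M) {z : ℂ} (hz : z ∈ hbox M (pin M 1)) : z ∈ Oct M := by
  intro k
  have h0 := ms_pos hM
  have h1 := ms_le_one (M := M)
  have h2 : nsup z ≤ 1 + 7 / 16 * ms M + ms M / 32 := by
    rw [H995.pin_eq] at hz
    exact hbox_nsup hM le_rfl hz
  have h3 : |z.re| + |z.im| ≤ 2 - ms M / 2 := by
    rw [H995.pin_eq, mem_hbox] at hz
    have e1 : 1 / (2 * M + 1) = 0 := Nat.div_eq_of_lt (by omega)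
    have e2 : 1 % (2 * M + 1) = 1 := Nat.mod_eq_of_lt (by omega)
    simp only [hp, e1, e2, pow_zero, one_mul, H995.lp, Nat.cast_one] at hz
    obtain ⟨a1, a2⟩ := hz
    rw [abs_le] at a1 a2
    have b1 : |z.re| ≤ 1 + 7 / 16 * ms M + ms M / 32 := (le_max_left _ _).trans h2
    have b2 : |z.im| ≤ 1 - ms M + ms M / 32 := by
      rw [abs_le]
      constructor <;> linarith [a2.1, a2.2]
    linarith
  obtain ⟨w, rfl⟩ := exists_eq_I_pow_mul (k / (2 * M + 1)) z
  rw [abs_I_pow] at h3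
  rw [H959.nsup_I_pow_mul] at h2
  by_cases hk : k % (2 * M + 1) = 2 * M
  · rw [lf_diag hk]
    have c1 := le_abs_self w.re
    have c2 := le_abs_self w.im
    linarith
  · rw [lf_straight hk]
    have c1 : w.re ≤ nsup w := (le_abs_self _).trans (le_max_left _ _)
    linarith

/-! ### separation -/

theorem ring_block' {K : ℕ} {n : ℕ → ℕ} {v : ℕ → ℕ → ℂ} {w : ℕ → ℂ} {X : Set ℂ} (hX : Three X)
    (hK : 0 < K) (hP : Pieces K n v w) {B : Set ℂ}
    (hv : ∀ k < K, ∀ i < n k, nbr X (v k i) (v k (i + 1)))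
    (hvB : ∀ k < K, ∀ i ≤ n k, v k i ∈ B) {C C' : ℕ → Set ℂ} (hC : ∀ k < K, Convex ℝ (C k))
    (hO : ∀ k < K, IsOpen (C k)) (hvC : ∀ k < K, ∀ i ≤ n k, v k i ∈ C k)
    (h0C : ∀ k < K, (0 : ℂ) ∉ C k) {R : ℝ} (hCR : ∀ k < K, ∀ z ∈ C k, nsup z < R)
    (hC' : ∀ k < K, Convex ℝ (C' k)) (hvC' : ∀ k < K, ∀ i ≤ n k, v k i ∈ C' k)
    {S : Set ℂ} (hS : Convex ℝ S) (h0 : (0 : ℂ) ∈ S) (hd : ∀ k < K, Disjoint (C' k) S)
    (hpos : ∀ k < K, 0 < (conj (w k) * w (k + 1)).im)
    {m : ℕ} {u : ℕ → ℂ} (hu : ∀ i < m, nbr X (u i) (u (i + 1))) (hu0 : u 0 ∈ S)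
    (hu1 : R ≤ nsup (u m)) : ∃ i ≤ m, u i ∈ B := by
  by_contra hcon
  push Not at hcon
  have h1 := wd_path hX hP hv hvB hu hcon
  have hw0 : w 0 ∈ C 0 := by
    rw [← hP.start 0 hK]
    exact hvC 0 hK 0 (Nat.zero_le _)
  have h2 : wd K n v (u m) = 0 :=
    wd_zero hP (convex_nsup_lt R) (isOpen_nsup_lt R)
      (fun k hk i hi => hCR k hk _ (hvC k hk i hi)) (hCR 0 hK _ hw0) (not_lt.2 hu1)
  have h3 : wd K n v (u 0) = wd K n v 0 := wd_seg hP hC' hvC' hS hd hu0 h0
  have h4 : wd K n v 0 = ∑ k ∈ Finset.range K, ang 0 (w k) (w (k + 1)) :=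
    wd_pieces hP hC hO hvC h0C
  have h5 : 0 < ∑ k ∈ Finset.range K, ang 0 (w k) (w (k + 1)) := by
    refine Finset.sum_pos (fun k hk => ang_pos ?_) ⟨0, Finset.mem_range.2 hK⟩
    rw [sub_zero, sub_zero]
    exact hpos k (Finset.mem_range.1 hk)
  rw [h3, h4, h2] at h1
  linarith

/-- `x` and `y` are joined inside `Y`. -/
abbrev Jn (X Y : Set ℂ) (x y : ℂ) : Prop := H959.Jn X Y x y

/-- A join is a path. -/
theorem jn_path {X Y : Set ℂ} {x y : ℂ} (h : Jn X Y x y) : ∃ (n : ℕ) (v : ℕ → ℂ), v 0 = x ∧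
    v n = y ∧ (∀ i < n, nbr X (v i) (v (i + 1))) ∧ ∀ i ≤ n, v i = x ∨ v i ∈ Y := by
  induction h with
  | refl => exact ⟨0, fun _ => x, rfl, rfl, by simp, fun i _ => Or.inl rfl⟩
  | @tail y z _ hyz ih =>
    obtain ⟨n, v, h0, h1, h2, h3⟩ := ih
    refine ⟨n + 1, fun i => if i ≤ n then v i else z, by simp [h0], by simp, ?_, ?_⟩
    · intro i hi
      rcases Nat.lt_or_ge i n with h4 | h4
      · simp only [show i ≤ n by omega, if_true, show i + 1 ≤ n by omega]
        exact h2 i h4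
      · have : i = n := by omega
        subst this
        simp only [le_refl, if_true, show ¬ (i + 1 ≤ i) by omega, if_false]
        rw [h1]; exact hyz.1
    · intro i hi
      by_cases h4 : i ≤ n
      · simp only [h4, if_true]; exact h3 i h4
      · simp only [h4, if_false]; exact Or.inr hyz.2.2

/-- The pieces of a ring of joins. -/
theorem exists_pieces {X P : Set ℂ} {K : ℕ} {L : ℕ → Set ℂ} {w : ℕ → ℂ} (hcl : w K = w 0)
    (hw : ∀ k < K, w k ∈ P ∩ L k) (hJ : ∀ k < K, Jn X (P ∩ L k) (w k) (w (k + 1))) :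
    ∃ (n : ℕ → ℕ) (v : ℕ → ℕ → ℂ), Pieces K n v w ∧
      (∀ k < K, ∀ i < n k, nbr X (v k i) (v k (i + 1))) ∧ (∀ k < K, ∀ i ≤ n k, v k i ∈ P) ∧
      ∀ k < K, ∀ i ≤ n k, v k i ∈ L k := by
  have h : ∀ k, ∃ (n : ℕ) (v : ℕ → ℂ), k < K → (v 0 = w k ∧ v n = w (k + 1) ∧
      (∀ i < n, nbr X (v i) (v (i + 1))) ∧ ∀ i ≤ n, v i ∈ P ∩ L k) := by
    intro k
    by_cases hk : k < K
    · obtain ⟨n, v, h0, h1, h2, h3⟩ := jn_path (hJ k hk)
      refine ⟨n, v, fun _ => ⟨h0, h1, h2, fun i hi => ?_⟩⟩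
      rcases h3 i hi with h4 | h4
      · rw [h4]; exact hw k hk
      · exact h4
    · exact ⟨0, fun _ => 0, fun h => absurd h hk⟩
  choose n v hnv using h
  exact ⟨n, v, ⟨fun k hk => (hnv k hk).1, fun k hk => (hnv k hk).2.1, hcl⟩,
    fun k hk => (hnv k hk).2.2.1, fun k hk i hi => ((hnv k hk).2.2.2 i hi).1,
    fun k hk i hi => ((hnv k hk).2.2.2 i hi).2⟩

/-- **The inner ring separates.** -/
theorem sep_in {X : Set ℂ} (hX : Three X) (hM : 0 < M) {P : Set ℂ} {w : ℕ → ℂ}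
    (hcl : w (nc M) = w 0) (hg : ∀ k ≤ nc M, w k ∈ gbox M k)
    (hw : ∀ k < nc M, w k ∈ P ∩ Loc M (7 / 16) k)
    (hJ : ∀ k < nc M, Jn X (P ∩ Loc M (7 / 16) k) (w k) (w (k + 1))) {Y : Set ℂ}
    (hY : ∀ z ∈ Y, z ∉ P) {x y : ℂ} (hxy : Jn X Y x y) (hx : nsup x ≤ 1 + ms M / 8) :
    nsup y < 1 + ms M / 2 := by
  have h0 := ms_pos hM
  by_contra hcon
  push Not at hcon
  obtain ⟨n, v, hP, h1, h2, h3⟩ := exists_pieces hcl hw hJ
  have hxY : x ∈ Y := by
    rcases Relation.ReflTransGen.cases_head hxy with h4 | ⟨c, h4, -⟩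
    · rw [h4] at hx; linarith
    · exact h4.2.1
  obtain ⟨m, u, e0, e1, e2, e3⟩ := jn_path hxy
  obtain ⟨i, hi, hiP⟩ := ring_block' hX (H995.nc_pos M) hP h1 h2
    (C := fun k => reg M k ∩ {z | nsup z < 1 + ms M / 2})
    (C' := fun k => {z | 1 + 3 * ms M / 8 ≤ lf M k z}) (S := {z | nsup z ≤ 1 + ms M / 8})
    (R := 1 + ms M / 2)
    (fun k _ => (convex_reg M k).inter (convex_nsup_lt _))
    (fun k _ => (isOpen_reg M k).inter (isOpen_nsup_lt _))
    (fun k hk i hi => ⟨loc_in_reg hM k (h3 k hk i hi), loc_in_nsup hM (h3 k hk i hi)⟩)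
    (fun k hk hc => by
      have := (reg_nsup hM hc.1).1
      have h1 := ms_le_one (M := M)
      simp only [nsup, zero_re, zero_im, abs_zero, max_self] at this
      linarith)
    (fun k hk z hz => hz.2) (fun k _ => convex_lf_ge M k _)
    (fun k hk i hi => by
      have := loc_lf hM le_rfl (by norm_num) (h3 k hk i hi)
      show 1 + 3 * ms M / 8 ≤ lf M k (v k i)
      linarith)
    (convex_nsup_le _)
    (by
      show nsup 0 ≤ 1 + ms M / 8
      simp only [nsup, zero_re, zero_im, abs_zero, max_self]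
      linarith)
    (fun k hk => by
      rw [Set.disjoint_left]
      intro z (hz : 1 + 3 * ms M / 8 ≤ lf M k z) (hz' : nsup z ≤ 1 + ms M / 8)
      have := nsup_of_lf (M := M) (k := k) (c := ms M / 8) (z := z) (by positivity) (by linarith)
      linarith)
    (fun k hk => gbox_pos hM (hg k hk.le) (hg (k + 1) hk)) e2
    (by rw [e0]; exact hx) (by rw [e1]; exact hcon)
  rcases e3 i hi with h4 | h4
  · exact hY _ hxY (h4 ▸ hiP)
  · exact hY _ h4 hiP

/-- **The outer ring separates.** -/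
theorem sep_out {X : Set ℂ} (hX : Three X) (hM : 0 < M) {P : Set ℂ} {w : ℕ → ℂ}
    (hcl : w (nc M) = w 0) (hg : ∀ k ≤ nc M, w k ∈ gbox M k)
    (hw : ∀ k < nc M, w k ∈ P ∩ Loc M (9 / 16) k)
    (hJ : ∀ k < nc M, Jn X (P ∩ Loc M (9 / 16) k) (w k) (w (k + 1))) {Y : Set ℂ}
    (hY : ∀ z ∈ Y, z ∉ P) {x y : ℂ} (hxy : Jn X Y x y) (hx : x ∈ Oct M) (hxP : x ∉ P) :
    nsup y < 1 + 5 * ms M / 8 := by
  have h0 := ms_pos hM
  by_contra hcon
  push Not at hcon
  obtain ⟨n, v, hP, h1, h2, h3⟩ := exists_pieces hcl hw hJ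
  obtain ⟨m, u, e0, e1, e2, e3⟩ := jn_path hxy
  obtain ⟨i, hi, hiP⟩ := ring_block' hX (H995.nc_pos M) hP h1 h2
    (C := fun k => reg M k) (C' := fun k => {z | 1 + ms M / 2 ≤ lf M k z}) (S := Oct M)
    (R := 1 + 5 * ms M / 8)
    (fun k _ => convex_reg M k) (fun k _ => isOpen_reg M k)
    (fun k hk i hi => loc_out_reg hM k (h3 k hk i hi))
    (fun k hk hc => by
      have := (reg_nsup hM hc).1
      have h1 := ms_le_one (M := M)
      simp only [nsup, zero_re, zero_im, abs_zero, max_self] at this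
      linarith)
    (fun k hk z hz => (reg_nsup hM hz).2) (fun k _ => convex_lf_ge M k _)
    (fun k hk i hi => by
      have := loc_lf hM (by norm_num) le_rfl (h3 k hk i hi)
      show 1 + ms M / 2 ≤ lf M k (v k i)
      linarith)
    (convex_oct M) (zero_mem_oct hM)
    (fun k hk => by
      rw [Set.disjoint_left]
      intro z (hz : 1 + ms M / 2 ≤ lf M k z) hz'
      have := hz' k
      linarith)
    (fun k hk => gbox_pos hM (hg k hk.le) (hg (k + 1) hk)) e2
    (by rw [e0]; exact hx) (by rw [e1]; exact hcon)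
  rcases e3 i hi with h4 | h4
  · exact hxP (h4 ▸ hiP)
  · exact hY _ h4 hiP

end Vale.Agent.P148.R2.H871
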