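import Vale.Agent.P148.R2.H565.Loc12
import Vale.Agent.P148.R2.H678.Cl
import Vale.Agent.P148.R2.H871.CW6
import Vale.Agent.P148.R2.H592.Dom1

/-!
# P148, row CW, part 7: the inner (black) and the outer (white) ring of the comb
-/

open Set Metric Relation

namespace Vale.Agent.P148.R2.H871

open Vale.Agent.P148.R2.N (ms nc gateC gbox ms_pos ms_le_one)
open Vale.Agent.P148.R2.H678
open Vale.Agent.P148.R2.H592 (nbr nbr_symm Three HullTri ConnIn comp connIn_comp mem_comp_self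
  comp_closed)
open Vale.Agent.P148.R2.H995 (nsup hp)
open Vale.Agent.P148.R2.H959 (bd far_conn escape)
open Vale.Agent.P148.R2.H565 (CombOK)

variable {M : ℕ} {X : Set ℂ} {b : ZMod 3 → ℂ}

/-- The neighbours of `K` which are joined to the hull off `K`. -/
def fo (X : Set ℂ) (b : ZMod 3 → ℂ) (K : Set ℂ) : Set ℂ :=
  {v | v ∈ bd X K ∧ Jn X (X \ K) v (b 0)}

/-- A connected set of sites of the colour `Q` along the hubs of parameter `c` and the rails between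
them, closed around the collar. -/
structure RingSet (X : Set ℂ) (b : ZMod 3 → ℂ) (M : ℕ) (c : ℝ) (K : ℕ → Set ℂ) (Q P : Set ℂ)
    (w : ℕ → ℂ) : Prop where
  sub : P ⊆ X ∩ Q
  conn : ConnIn X P
  loc : ∀ z ∈ P, ∃ k, z ∈ Loc M c k
  far : ∀ k, fo X b (K k) ⊆ P
  wfo : ∀ k, w k ∈ fo X b (K k)
  close : w (nc M) = w 0
  gb : ∀ k ≤ nc M, w k ∈ gbox M k
  mem : ∀ k < nc M, w k ∈ P ∩ Loc M c k
  jn : ∀ k < nc M, Jn X (P ∩ Loc M c k) (w k) (w (k + 1))

theorem jn_lift {P L : Set ℂ} {r x y : ℂ} (h : Jn X (P ∩ L) x y) (hx : x ∈ comp X P r) :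
    Jn X (comp X P r ∩ L) x y ∧ y ∈ comp X P r := by
  induction h with
  | refl => exact ⟨ReflTransGen.refl, hx⟩
  | tail _ hyz ih =>
    have h1 := comp_closed ih.2 hyz.1 hyz.2.2.1
    exact ⟨ih.1.tail ⟨hyz.1, ⟨ih.2, hyz.2.1.2⟩, ⟨h1, hyz.2.2.2⟩⟩, h1⟩

theorem jn_of_seq {Y : Set ℂ} {n : ℕ} {v : ℕ → ℂ} (hv : ∀ i < n, nbr X (v i) (v (i + 1)))
    (hY : ∀ i ≤ n, v i ∈ Y) : Jn X Y (v 0) (v n) := by
  induction n with
  | zero => exact ReflTransGen.refl
  | succ n ih =>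
    exact (ih (fun i hi => hv i (by omega)) (fun i hi => hY i (by omega))).tail
      ⟨hv n (by omega), hY n (by omega), hY (n + 1) le_rfl⟩

section ring

variable (h : HullTri X b) (hM : 0 < M) {c : ℝ} (hc : 7 / 16 ≤ c) (hc' : c ≤ 9 / 16)
  {C Q E Pc : Set ℂ}

/-- The core of the hub of parameter `c`. -/
def kc (X : Set ℂ) (M : ℕ) (c : ℝ) (C : Set ℂ) (k : ℕ) : Set ℂ :=
  core (nbr X) (X ∩ ball (hp M k c) (sd M)) C

theorem bd_sub_rim (k : ℕ) :
    bd X (kc X M c C k) ⊆ rim (nbr X) (X ∩ ball (hp M k c) (sd M)) C := by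
  rintro z ⟨-, h2, u, hu, hzu⟩
  exact ⟨hub_step hu (nbr_symm hzu), h2⟩

theorem rim_sub_bd {k : ℕ} {z : ℂ}
    (hz : z ∈ rim (nbr X) (X ∩ ball (hp M k c) (sd M)) C) : z ∈ bd X (kc X M c C k) := by
  obtain ⟨h1, h2⟩ := hz
  rcases h1 with h1 | ⟨u, hu, huz⟩
  · exact absurd h1 h2
  · exact ⟨huz.2.1, h2, u, hu, nbr_symm huz⟩

theorem kc_mod (k : ℕ) : kc X M c C (k % nc M) = kc X M c C k := by
  unfold kc
  rw [H995.hp_mod]

include h hM hc hc' in
/-- **A ring of sites from the links between the hubs.** -/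
theorem exists_ringSet
    (hsub : ∀ k, hub (nbr X) (X ∩ ball (hp M k c) (sd M)) C ⊆ hbox M (hp M k c))
    (hrim : ∀ k, rim (nbr X) (X ∩ ball (hp M k c) (sd M)) C ⊆ Q)
    (hPQ : ∀ v ∈ Pc, v ∉ E → v ∈ Q)
    (hE : ∀ k, hub (nbr X) (X ∩ ball (hp M k c) (sd M)) C ⊆ E)
    (hb : ∀ j, 1 + ms M ≤ nsup (b j))
    (hlink : ∀ k, Link X E Pc (rim (nbr X) (X ∩ ball (hp M k c) (sd M)) C)
      (rim (nbr X) (X ∩ ball (hp M (k + 1) c) (sd M)) C)
      (CBox M (hp M k c) (hp M (k + 1) c))) :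
    ∃ P w, RingSet X b M c (kc X M c C) Q P w := by
  have h0 := ms_pos hM
  have hgb : ∀ k, hub (nbr X) (X ∩ ball (hp M k c) (sd M)) C ⊆ gbox M k := fun k =>
    (hsub k).trans (H995.hbox_sub_gbox' hM hc hc')
  have hbg : ∀ k j, b j ∉ gbox M k := by
    intro k j hj
    have h1 := (H959.reg_nsup hM (H959.gbox_subset_reg M k hj)).2
    have := hb j
    linarith
  have hconn : ∀ k, ConnIn X (kc X M c C k) := fun k => connIn_core h.fin _ _
  have hcoreb : ∀ k, kc X M c C k ⊆ gbox M k := fun k => core_sub_hub.trans (hgb k)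
  -- the ends of the links
  have hends : ∀ k, ∃ x y, x ∈ fo X b (kc X M c C k) ∧ y ∈ fo X b (kc X M c C (k + 1)) ∧
      Jn X (X ∩ Q ∩ Loc M c k) x y := by
    intro k
    obtain ⟨n, v, l0, l1, l2, l3, l4, l5⟩ := hlink k
    have hX : ∀ i ≤ n, v i ∈ X := by
      intro i hi
      rcases hi.lt_or_eq with h1 | h1
      · exact (l1 i h1).1
      · have := (l1 (n - 1) (by omega)).2.1
        rw [show n - 1 + 1 = n by omega] at this
        rw [h1]; exact this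
    have hg0 : v 0 ∈ gbox M k := hgb k l2.1
    have hgn : v n ∈ gbox M (k + 1) := hgb (k + 1) l3.1
    have hdis := H565.gbox_disj_succ hM k
    have hoff : ∀ i ≤ n, v i ∉ kc X M c C k := by
      intro i hi hcon
      rcases Nat.eq_zero_or_pos i with h1 | h1
      · rw [h1] at hcon; exact l2.2 hcon
      · rcases hi.lt_or_eq with h2 | h2
        · exact (l4 i h1 h2).2 (hE k (core_sub_hub hcon))
        · rw [h2] at hcon
          exact hdis _ (hcoreb k hcon) hgn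
    have hoff' : ∀ i ≤ n, v i ∉ kc X M c C (k + 1) := by
      intro i hi hcon
      rcases Nat.eq_zero_or_pos i with h1 | h1
      · rw [h1] at hcon
        exact hdis _ hg0 (hcoreb (k + 1) hcon)
      · rcases hi.lt_or_eq with h2 | h2
        · exact (l4 i h1 h2).2 (hE (k + 1) (core_sub_hub hcon))
        · rw [h2] at hcon; exact l3.2 hcon
    have hnX : v n ∈ X := hX n le_rfl
    refine ⟨v 0, v n, ⟨rim_sub_bd l2, ?_⟩, ⟨rim_sub_bd l3, ?_⟩, ?_⟩
    · have e1 : Jn X (X \ kc X M c C k) (v 0) (v n) :=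
        jn_of_seq l1 fun i hi => ⟨hX i hi, hoff i hi⟩
      have e2 := escape h (H565.convex_csq _ _) (H565.isOpen_csq _ _) (hbg k) hnX
        (fun hc => hdis _ hc hgn)
      refine ReflTransGen.trans e1 (H959.Jn.mono ?_ e2)
      exact fun z hz => ⟨hz.1, fun hc => hz.2 (hcoreb k hc)⟩
    · have e1 : Jn X (X \ kc X M c C (k + 1)) (v 0) (v n) :=
        jn_of_seq l1 fun i hi => ⟨hX i hi, hoff' i hi⟩
      have e2 := escape h (H565.convex_csq _ _) (H565.isOpen_csq _ _) (hbg (k + 1))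
        (hX 0 (Nat.zero_le n)) (fun hc => hdis _ hg0 hc)
      refine ReflTransGen.trans (H959.Jn.symm e1) (H959.Jn.mono ?_ e2)
      exact fun z hz => ⟨hz.1, fun hc => hz.2 (hcoreb (k + 1) hc)⟩
    · refine jn_of_seq l1 fun i hi => ⟨⟨hX i hi, ?_⟩, Or.inl (Or.inr (l5 i hi))⟩
      rcases Nat.eq_zero_or_pos i with h1 | h1
      · rw [h1]; exact hrim k l2
      · rcases hi.lt_or_eq with h2 | h2
        · exact hPQ _ (l4 i h1 h2).1 (l4 i h1 h2).2
        · rw [h2]; exact hrim (k + 1) l3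
  choose a a' ha ha' hJ using hends
  -- two far vertices of a gate
  have hrimloc : ∀ k, bd X (kc X M c C k) ⊆ X ∩ Q ∩ hbox M (hp M k c) := by
    intro k z hz
    have h1 := bd_sub_rim k hz
    exact ⟨⟨hz.1, hrim k h1⟩, hsub k h1.1⟩
  have hfar : ∀ k x y, x ∈ fo X b (kc X M c C k) → y ∈ fo X b (kc X M c C k) →
      Jn X (X ∩ Q ∩ hbox M (hp M k c)) x y := by
    intro k x y hx hy
    exact H959.Jn.mono (hrimloc k)
      (far_conn h (hconn k) hx.1 hy.1 (hx.2.trans (H959.Jn.symm hy.2)))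
  set P' : Set ℂ := {z | z ∈ X ∩ Q ∧ ∃ k, z ∈ Loc M c k} with hP'
  set w : ℕ → ℂ := fun k => a (k % nc M) with hw
  have hwfo : ∀ k, w k ∈ fo X b (kc X M c C k) := by
    intro k
    rw [← kc_mod]
    exact ha (k % nc M)
  have hfoP : ∀ k, fo X b (kc X M c C k) ⊆ P' := fun k z hz => by
    have h1 := hrimloc k hz.1
    exact ⟨h1.1, k, Or.inl (Or.inl h1.2)⟩
  have hstep : ∀ k < nc M, Jn X (P' ∩ Loc M c k) (w k) (w (k + 1)) := by
    intro k hk
    have e1 : w k = a k := by rw [hw]; simp only [Nat.mod_eq_of_lt hk]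
    have e2 := hfar (k + 1) _ _ (ha' k) (hwfo (k + 1))
    rw [e1]
    refine ReflTransGen.trans (H959.Jn.mono ?_ (hJ k)) (H959.Jn.mono ?_ e2)
    · exact fun z hz => ⟨⟨hz.1, k, hz.2⟩, hz.2⟩
    · exact fun z hz => ⟨⟨hz.1, k, Or.inr hz.2⟩, Or.inr hz.2⟩
  have hw0 : w 0 ∈ comp X P' (w 0) := mem_comp_self (hfoP 0 (hwfo 0))
  have hwP : ∀ k ≤ nc M, w k ∈ comp X P' (w 0) := by
    intro k
    induction k with
    | zero => exact fun _ => hw0
    | succ k ih => exact fun hk => (jn_lift (hstep k (by omega)) (ih (by omega))).2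
  have hPsub : P' ⊆ X := fun z hz => hz.1.1
  refine ⟨comp X P' (w 0), w, ?_⟩
  have hwall : ∀ k, w k ∈ comp X P' (w 0) := by
    intro k
    have e1 : w k = w (k % nc M) := by rw [hw]; simp only [Nat.mod_mod]
    rw [e1]
    exact hwP _ (Nat.mod_lt _ (H995.nc_pos M)).le
  have hmem : ∀ k < nc M, w k ∈ comp X P' (w 0) ∩ Loc M c k := by
    intro k hk
    exact ⟨hwall k, Or.inl (Or.inl (hrimloc k (hwfo k).1).2)⟩
  refine ⟨fun z hz => hz.1.1, connIn_comp hPsub _, fun z hz => hz.1.2, ?_, hwfo, ?_, ?_, hmem, ?_⟩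
  · intro k x hx
    have e1 : Jn X (X ∩ Q ∩ hbox M (hp M k c)) (w k) x := hfar k _ _ (hwfo k) hx
    have e2 : Jn X (P' ∩ univ) (w k) x := by
      refine H959.Jn.mono ?_ e1
      exact fun z hz => ⟨⟨hz.1, k, Or.inl (Or.inl hz.2)⟩, mem_univ z⟩
    exact (jn_lift e2 (hwall k)).2
  · show a (nc M % nc M) = a (0 % nc M)
    rw [Nat.mod_self, Nat.zero_mod]
  · intro k _
    exact H995.hbox_sub_gbox' hM hc hc' (hrimloc k (hwfo k).1).2
  · intro k hk
    exact (jn_lift (hstep k hk) (hwall k)).1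

end ring

/-! ### the rings of the comb -/

section comb

variable {Bl₁ Wh₁ Bl₂ Wh₂ : Set ℂ} {s : ℂ → Bool}

theorem hubsGood (hc : CombOK M X Bl₁ Wh₁ Bl₂ Wh₂ s) : HubsGood M X Bl₁ Wh₁ :=
  fun k hk => ⟨hc.inG k hk, hc.outG k hk⟩

theorem rails_all (hc : CombOK M X Bl₁ Wh₁ Bl₂ Wh₂ s) (k : ℕ) : Rails M X Bl₂ Wh₂ k :=
  (rails_mod k).1 (hc.rails _ (Nat.mod_lt _ (H995.nc_pos M)))

theorem not_Ex {z : ℂ} (hz : z ∉ Ex M X Bl₁ Wh₁) :
    ∀ k < nc M, z ∉ inHub M X Wh₁ k ∧ z ∉ outHub M X Bl₁ k := fun k _ =>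
  ⟨fun h => hz (mem_iUnion.2 ⟨k, Or.inl h⟩), fun h => hz (mem_iUnion.2 ⟨k, Or.inr h⟩)⟩

/-- **The inner black ring.** -/
theorem exists_ringIn (h : HullTri X b) (hM : 0 < M) (hc : CombOK M X Bl₁ Wh₁ Bl₂ Wh₂ s)
    (hb : ∀ j, 1 + ms M ≤ nsup (b j)) :
    ∃ P w, RingSet X b M (7 / 16) (kc X M (7 / 16) Wh₁) {z | s z = true} P w := by
  refine exists_ringSet (E := Ex M X Bl₁ Wh₁) (Pc := Bl₂) h hM le_rfl (by norm_num) ?_ ?_ ?_ ?_ hb ?_
  · intro k
    rw [← H995.pin_eq]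
    exact hc.inG' k
  · intro k z hz
    rw [← H995.pin_eq] at hz
    exact hc.hin' k z hz.1 (rim_not hz)
  · intro v hv hE
    exact hc.off2 v hv (not_Ex hE)
  · intro k z hz
    rw [← H995.pin_eq] at hz
    exact mem_iUnion.2 ⟨k, Or.inl hz⟩
  · intro k
    rw [← H995.pin_eq, ← H995.pin_eq]
    exact (hubsGood hc).low_link hM hc.b2 (rails_all hc k)

/-- **The outer white ring.** -/
theorem exists_ringOut (h : HullTri X b) (hM : 0 < M) (hc : CombOK M X Bl₁ Wh₁ Bl₂ Wh₂ s)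
    (hb : ∀ j, 1 + ms M ≤ nsup (b j)) :
    ∃ P w, RingSet X b M (9 / 16) (kc X M (9 / 16) Bl₁) {z | s z = false} P w := by
  refine exists_ringSet (E := Ex M X Bl₁ Wh₁) (Pc := Wh₂) h hM (by norm_num) le_rfl ?_ ?_ ?_ ?_ hb ?_
  · intro k
    rw [← H995.pout_eq]
    exact hc.outG' k
  · intro k z hz
    rw [← H995.pout_eq] at hz
    exact hc.hout' k z hz.1 (rim_not hz)
  · intro v hv hE
    exact hc.off2' v hv (not_Ex hE)
  · intro k z hz
    rw [← H995.pout_eq] at hz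
    exact mem_iUnion.2 ⟨k, Or.inr hz⟩
  · intro k
    rw [← H995.pout_eq, ← H995.pout_eq]
    exact (hubsGood hc).up_link hM hc.w2 (rails_all hc k)

end comb

/-! ### separation by the rings -/

section sep

variable {K : ℕ → Set ℂ} {Q P : Set ℂ} {w : ℕ → ℂ}

theorem RingSet.sepIn (hR : RingSet X b M (7 / 16) K Q P w) (hX : Three X) (hM : 0 < M)
    {Y : Set ℂ} (hY : ∀ z ∈ Y, z ∉ P) {x y : ℂ} (hxy : Jn X Y x y)
    (hx : nsup x ≤ 1 + ms M / 8) : nsup y < 1 + ms M / 2 :=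
  sep_in hX hM hR.close hR.gb hR.mem hR.jn hY hxy hx

theorem RingSet.not_oct (hR : RingSet X b M (9 / 16) K Q P w) (hM : 0 < M) {x : ℂ}
    (hx : x ∈ Oct M) : x ∉ P := by
  intro hxP
  obtain ⟨k, hk⟩ := hR.loc x hxP
  have h1 := loc_lf hM (by norm_num) le_rfl hk
  have h2 := hx k
  linarith

theorem RingSet.sepOut (hR : RingSet X b M (9 / 16) K Q P w) (hX : Three X) (hM : 0 < M)
    {Y : Set ℂ} (hY : ∀ z ∈ Y, z ∉ P) {x y : ℂ} (hxy : Jn X Y x y) (hx : x ∈ Oct M) :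
    nsup y < 1 + 5 * ms M / 8 :=
  sep_out hX hM hR.close hR.gb hR.mem hR.jn hY hxy hx (hR.not_oct hM hx)

theorem RingSet.nsup_lt (hR : RingSet X b M (9 / 16) K Q P w) (hM : 0 < M) {x : ℂ}
    (hx : x ∈ P) : nsup x < 1 + 5 * ms M / 8 := by
  obtain ⟨k, hk⟩ := hR.loc x hx
  exact (H959.reg_nsup hM (loc_out_reg hM k hk)).2

theorem RingSet.nsup_gt (hR : RingSet X b M (7 / 16) K Q P w) (hM : 0 < M) {x : ℂ}
    (hx : x ∈ P) : 1 + ms M / 8 < nsup x := by
  have h0 := ms_pos hM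
  obtain ⟨k, hk⟩ := hR.loc x hx
  have h1 := loc_lf hM le_rfl (by norm_num) hk
  exact nsup_of_lf (M := M) (k := k) (by positivity) (by linarith)

/-- Joins of the whole ring. -/
theorem RingSet.joined {c : ℝ} (hR : RingSet X b M c K Q P w) {x y : ℂ} (hx : x ∈ P)
    (hy : y ∈ P) : Jn X P x y := hR.conn.2 x hx y hy

end sep

/-! ### last visit -/

/-- The vertices of a join to `y` are joined to `y`. -/
theorem jn_self {Z : Set ℂ} {x y : ℂ} (h : Jn X Z x y) :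
    Jn X {z | z ∈ Z ∧ Jn X Z z y} x y := by
  induction h using ReflTransGen.head_induction_on with
  | refl => exact ReflTransGen.refl
  | head hac hcy ih =>
    exact ReflTransGen.head ⟨hac.1, ⟨hac.2.1, ReflTransGen.head hac hcy⟩, ⟨hac.2.2, hcy⟩⟩ ih

/-- Last visit of a set. -/
theorem last_visit {Z Q : Set ℂ} {x y : ℂ} (h : Jn X Z x y) :
    Jn X (Z \ Q) x y ∨ ∃ q ∈ Q, q = y ∨ ∃ q', nbr X q q' ∧ q' ∉ Q ∧ Jn X (Z \ Q) q' y := by
  classical
  induction h using ReflTransGen.head_induction_on with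
  | refl => exact Or.inl ReflTransGen.refl
  | @head a c hac hcy ih =>
    rcases ih with ih | ih
    · by_cases ha : a ∈ Q
      · right
        by_cases hc : c ∈ Q
        · -- then `c = y`
          rcases ReflTransGen.cases_head ih with h1 | ⟨e, h1, -⟩
          · exact ⟨c, hc, Or.inl h1⟩
          · exact absurd hc h1.2.1.2
        · exact ⟨a, ha, Or.inr ⟨c, hac.1, hc, ih⟩⟩
      · by_cases hc : c ∈ Q
        · rcases ReflTransGen.cases_head ih with h1 | ⟨e, h1, -⟩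
          · exact Or.inr ⟨c, hc, Or.inl h1⟩
          · exact absurd hc h1.2.1.2
        · exact Or.inl (ReflTransGen.head ⟨hac.1, ⟨hac.2.1, ha⟩, ⟨hac.2.2, hc⟩⟩ ih)
    · exact Or.inr ih

end Vale.Agent.P148.R2.H871
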